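/-
Row 210 (S0432), layer FE, architect helper241.  File Calc: one lemma of real analysis.
-/
import Mathlib

set_option autoImplicit false

open Set Filter
open scoped Topology

namespace Claimed.Agent.R210.FE.Calc

/-- `β` continuous on `[0,1]`, right differentiable on `(0,1)` with `β'₊(s) ≥ A - c (1-s)`.
Then `β 1 - β 0 ≥ A - c/2`.
(`φ(s) = β(s) - A s - c (1-s)²/2` has right derivative `≥ 0`; apply
`image_le_of_deriv_right_le_deriv_boundary` on `[η, 1]`, then `η ↓ 0` by continuity.) -/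
theorem fe_calc {β : ℝ → ℝ} {A c : ℝ} (hc : ContinuousOn β (Icc 0 1))
    (hd : ∀ s ∈ Ioo (0 : ℝ) 1, ∃ d : ℝ, HasDerivWithinAt β d (Ioi s) s ∧ A - c * (1 - s) ≤ d) :
    A - c / 2 ≤ β 1 - β 0 := by
  classical
  -- choose the right derivative
  let d : ℝ → ℝ := fun s => if h : s ∈ Ioo (0 : ℝ) 1 then (hd s h).choose else 0
  have hd1 : ∀ s ∈ Ioo (0 : ℝ) 1, HasDerivWithinAt β (d s) (Ioi s) s := by
    intro s hs
    simp only [d, dif_pos hs]
    exact (hd s hs).choose_spec.1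
  have hd2 : ∀ s ∈ Ioo (0 : ℝ) 1, A - c * (1 - s) ≤ d s := by
    intro s hs
    simp only [d, dif_pos hs]
    exact (hd s hs).choose_spec.2
  -- the inequality on `[η, 1]`
  have key : ∀ η ∈ Ioo (0 : ℝ) 1,
      A - c / 2 + (β η - (A * η - c * (η - η ^ 2 / 2))) ≤ β 1 := by
    intro η hη
    have hsub : Icc η 1 ⊆ Icc (0 : ℝ) 1 := Icc_subset_Icc hη.1.le le_rfl
    have hder : ∀ x : ℝ, HasDerivAt
        (fun s : ℝ => A * s - c * (s - s ^ 2 / 2) + (β η - (A * η - c * (η - η ^ 2 / 2))))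
        (A - c * (1 - x)) x := by
      intro x
      have h1 : HasDerivAt (fun s : ℝ => A * s) A x := by
        simpa using (hasDerivAt_id x).const_mul A
      have h2 : HasDerivAt (fun s : ℝ => s ^ 2 / 2) x x := by
        have := ((hasDerivAt_id x).pow 2).div_const 2
        simpa using this
      have h3 : HasDerivAt (fun s : ℝ => c * (s - s ^ 2 / 2)) (c * (1 - x)) x :=
        ((hasDerivAt_id x).sub h2).const_mul c
      exact (h1.sub h3).add_const _
    have := image_le_of_deriv_right_le_deriv_boundary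
      (f := fun s : ℝ => A * s - c * (s - s ^ 2 / 2) + (β η - (A * η - c * (η - η ^ 2 / 2))))
      (f' := fun x => A - c * (1 - x)) (a := η) (b := 1) (B := β) (B' := d)
      (fun x _ => (hder x).continuousAt.continuousWithinAt)
      (fun x _ => (hder x).hasDerivWithinAt)
      (by simp)
      (hc.mono hsub)
      (fun x hx => (hd1 x ⟨lt_of_lt_of_le hη.1 hx.1, hx.2⟩).Ici_of_Ioi)
      (fun x hx => hd2 x ⟨lt_of_lt_of_le hη.1 hx.1, hx.2⟩)
      (right_mem_Icc.2 hη.2.le)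
    have h' : A * 1 - c * (1 - (1 : ℝ) ^ 2 / 2) + (β η - (A * η - c * (η - η ^ 2 / 2))) ≤ β 1 := this
    linarith
  -- let `η ↓ 0`
  have hβ : Tendsto β (𝓝[>] (0 : ℝ)) (𝓝 (β 0)) := by
    have h0 : ContinuousWithinAt β (Icc 0 1) 0 := hc 0 (left_mem_Icc.2 zero_le_one)
    have : 𝓝[>] (0 : ℝ) ≤ 𝓝[Icc 0 1] (0 : ℝ) := by
      have h1 : Icc (0 : ℝ) 1 ∈ 𝓝[>] (0 : ℝ) :=
        mem_of_superset (Ioo_mem_nhdsGT (zero_lt_one)) Ioo_subset_Icc_self
      exact le_inf (nhdsWithin_le_nhds) (le_principal_iff.2 h1)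
    exact h0.tendsto.mono_left this
  have hid : Tendsto (fun η : ℝ => η) (𝓝[>] (0 : ℝ)) (𝓝 0) :=
    tendsto_id.mono_left nhdsWithin_le_nhds
  have hlim : Tendsto (fun η : ℝ => A - c / 2 + (β η - (A * η - c * (η - η ^ 2 / 2))))
      (𝓝[>] (0 : ℝ)) (𝓝 (A - c / 2 + (β 0 - (A * 0 - c * (0 - (0 : ℝ) ^ 2 / 2))))) := by
    refine tendsto_const_nhds.add (hβ.sub ?_)
    exact (hid.const_mul A).sub ((hid.sub ((hid.pow 2).div_const 2)).const_mul c)
  have hfin : A - c / 2 + (β 0 - (A * 0 - c * (0 - (0 : ℝ) ^ 2 / 2))) ≤ β 1 := by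
    refine le_of_tendsto hlim ?_
    filter_upwards [Ioo_mem_nhdsGT (zero_lt_one' ℝ)] with η hη using key η hη
  linarith

end Claimed.Agent.R210.FE.Calc
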