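/-
Row 210 (S0432), layer FE (first order inequality (E'')), architect helper241.  DEFINITIONS.
Proof text: `git show origin/helper928:docs/R210_partZ.md` (section FE).
The marginals of a plan at real times are `FO.Defs.fo_mu`.
-/
import Claimed.Agent.R210.Defs

set_option autoImplicit false

open Claims.C0366 Claims.C0366.WeakHessian
open Set Filter MeasureTheory
open scoped ENNReal NNReal Topology

namespace Claimed.Agent.R210.FE.Defs

open Claimed.Agent.R210.Defs

noncomputable section

variable {X : Type*} [MetricSpace X] [MeasurableSpace X] [BorelSpace X]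

/-- normalised restriction of `m` to `A` -/
def fe_unif (m : Measure X) (A : Set X) : Measure X := (m A)⁻¹ • m.restrict A

/-- density constant of `fe_unif m A` -/
def fe_cst (m : Measure X) (A : Set X) : ℝ≥0 := ((m A)⁻¹).toNNReal

/-- the radii `r_n = l / (20 (n+1))` -/
def fe_rad (l : ℝ) (n : ℕ) : ℝ := l / (20 * ((n : ℝ) + 1))

/-- Lipschitz cut-off: `1` on `closedBall y ρ`, `0` off `ball y (2ρ)` -/
def fe_cut (y : X) (ρ : ℝ) (z : X) : ℝ := max 0 (min 1 (2 - dist z y / ρ))

end

end Claimed.Agent.R210.FE.Defs
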