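/-
Row 210 (S0432), layer FE, architect helper241.  File Unif: normalised restrictions `fe_unif m A = (m A)⁻¹ • m|_A`.
Pure measure theory, no Sobolev calculus.
-/
import Claimed.Agent.R210.FE.Defs

set_option autoImplicit false

open Claims.C0366 Claims.C0366.WeakHessian
open Set Filter MeasureTheory
open scoped ENNReal NNReal Topology

namespace Claimed.Agent.R210.FE.Unif

open Claimed.Agent.R210.Defs Claimed.Agent.R210.FE.Defs

variable {X : Type*} [MetricSpace X] [MeasurableSpace X] [BorelSpace X]
variable {m : Measure X} {A : Set X}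

theorem fe_ball_ne_zero (hfull : FullSupport m) (x : X) {r : ℝ} (hr : 0 < r) :
    m (Metric.ball x r) ≠ 0 := by
  exact (hfull _ Metric.isOpen_ball ⟨x, Metric.mem_ball_self hr⟩).ne'

theorem fe_bounded_ne_top (hfin : FiniteOnBoundedSets m) (hA : Bornology.IsBounded A) : m A ≠ ∞ := by
  exact (hfin A hA).ne

theorem fe_unif_prob (h0 : m A ≠ 0) (h1 : m A ≠ ∞) : IsProbabilityMeasure (fe_unif m A) := by
  constructor
  rw [fe_unif, Measure.smul_apply, Measure.restrict_apply_univ, smul_eq_mul]
  exact ENNReal.inv_mul_cancel h0 h1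

/-- `fe_unif m A` does not charge the complement of any measurable (or not) superset of `A` -/
theorem fe_unif_compl (hA : MeasurableSet A) {S : Set X} (hAS : A ⊆ S) : fe_unif m A Sᶜ = 0 := by
  rw [fe_unif, Measure.smul_apply, smul_eq_mul]
  have : m.restrict A Sᶜ = 0 := by
    refine measure_mono_null (compl_subset_compl.2 hAS) ?_
    exact Measure.restrict_apply_eq_zero' hA |>.2 (by simp)
  rw [this, mul_zero]

theorem fe_unif_le (h0 : m A ≠ 0) : fe_unif m A ≤ (fe_cst m A : ℝ≥0∞) • m := by
  have hne : (m A)⁻¹ ≠ ∞ := ENNReal.inv_ne_top.2 h0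
  rw [fe_unif, fe_cst, ENNReal.coe_toNNReal hne]
  intro s
  rw [Measure.smul_apply, Measure.smul_apply]
  exact mul_le_mul_right (Measure.restrict_apply_le A s) _

theorem fe_unif_bddDens (hA : MeasurableSet A) (h0 : m A ≠ 0) (h1 : m A ≠ ∞) {o : X} {R : ℝ}
    (hsub : A ⊆ Metric.closedBall o R) : BddDens m (fe_unif m A) (fe_cst m A) o R :=
  ⟨fe_unif_prob h0 h1, fe_unif_le h0, fe_unif_compl hA hsub⟩

theorem fe_unif_integral (f : X → ℝ) :
    ∫ z, f z ∂(fe_unif m A) = (m A).toReal⁻¹ * ∫ z in A, f z ∂m := by
  rw [fe_unif, integral_smul_measure, ENNReal.toReal_inv, smul_eq_mul]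

/-- the average of an `L`-Lipschitz function over `ball x r` is `L r`-close to its value at `x` -/
theorem fe_unif_ball_close (hfull : FullSupport m) (hfin : FiniteOnBoundedSets m) {f : X → ℝ}
    {L : ℝ≥0} (hf : LipschitzWith L f) (x : X) {r : ℝ} (hr : 0 < r) :
    |∫ z, f z ∂(fe_unif m (Metric.ball x r)) - f x| ≤ L * r := by
  have h0 := fe_ball_ne_zero hfull x hr
  have h1 := fe_bounded_ne_top hfin (Metric.isBounded_ball (x := x) (r := r))
  have hp := fe_unif_prob h0 h1
  have hc : fe_unif m (Metric.ball x r) (Metric.ball x r)ᶜ = 0 :=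
    fe_unif_compl Metric.isOpen_ball.measurableSet Subset.rfl
  have hae : ∀ᵐ z ∂(fe_unif m (Metric.ball x r)), ‖f z - f x‖ ≤ L * r := by
    rw [ae_iff]
    refine measure_mono_null ?_ hc
    intro z hz hzb
    apply hz
    have h2 := hf.dist_le_mul z x
    rw [Real.dist_eq] at h2
    rw [Real.norm_eq_abs]
    refine h2.trans ?_
    exact mul_le_mul_of_nonneg_left (Metric.mem_ball.1 hzb).le L.2
  have hint : Integrable (fun z => f z - f x) (fe_unif m (Metric.ball x r)) :=
    Integrable.of_bound (hf.continuous.sub continuous_const).aestronglyMeasurable _ hae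
  have hintf : Integrable f (fe_unif m (Metric.ball x r)) := by
    have h3 := hint.add (integrable_const (f x))
    have h4 : ((fun z => f z - f x) + fun _ => f x) = f := by
      funext z
      simp
    rwa [h4] at h3
  have e : ∫ z, f z ∂(fe_unif m (Metric.ball x r)) - f x
      = ∫ z, (f z - f x) ∂(fe_unif m (Metric.ball x r)) := by
    rw [integral_sub hintf (integrable_const _)]
    simp
  rw [e, ← Real.norm_eq_abs]
  have := norm_integral_le_of_norm_le_const hae
  simpa using this

/-- `F` (bounded continuous) is integrable on a bounded set (finite measure; `A` need not be measurable: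
`Measure.integrableOn_of_bounded`) -/
theorem fe_integrableOn_F (hfin : FiniteOnBoundedSets m) {F : X → ℝ} (hF : LipB F)
    (hAb : Bornology.IsBounded A) : IntegrableOn F A m := by
  obtain ⟨⟨L, hL⟩, ⟨B, hB⟩⟩ := hF
  exact Measure.integrableOn_of_bounded (M := B) (hfin A hAb).ne hL.continuous.aestronglyMeasurable
    (Eventually.of_forall hB)

/-- `wfun x` (continuous, bounded on bounded sets) is integrable on a bounded set -/
theorem fe_integrableOn_wfun (hfin : FiniteOnBoundedSets m) (x : X)
    (hAb : Bornology.IsBounded A) : IntegrableOn (wfun x) A m := by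
  obtain ⟨R, hR⟩ := hAb.subset_closedBall x
  have hcont : Continuous (wfun x) := by
    unfold wfun
    fun_prop
  have hb : IntegrableOn (wfun x) (Metric.closedBall x R) m := by
    refine Measure.integrableOn_of_bounded (M := R ^ 2 / 2)
      (hfin _ Metric.isBounded_closedBall).ne hcont.aestronglyMeasurable ?_
    rw [ae_restrict_iff' Metric.isClosed_closedBall.measurableSet]
    refine Eventually.of_forall fun z hz => ?_
    have hz' : dist z x ≤ R := Metric.mem_closedBall.1 hz
    rw [Real.norm_eq_abs, wfun, abs_of_nonneg (by positivity)]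
    have : dist z x ^ 2 ≤ R ^ 2 := pow_le_pow_left₀ dist_nonneg hz' 2
    linarith
  exact hb.mono_set hR

end Claimed.Agent.R210.FE.Unif
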