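/-
Row 210 (S0432), layer FE, architect helper241.  File Cost: `W₂²(μ₀, μ₁)` when `μ₀` is concentrated near a point `x`.
Only the definitions `W2sq`, `W2sqR` (`R210/Defs.lean`), the frozen `IsCoupling`, `QuadraticTransportCost`, and the
elementary exports of OT (`ot_coupling_prod`, `ot_coupling_conc`, `ot_coupling_prob`, `ot_W2sq_le_cost`).
-/
import Claimed.Agent.R210.FE.Unif
import Claimed.Agent.R210.OT.Ifc

set_option autoImplicit false

open Claims.C0366 Claims.C0366.WeakHessian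
open Set Filter MeasureTheory
open scoped ENNReal NNReal Topology

namespace Claimed.Agent.R210.FE.Cost

open Claimed.Agent.R210.Defs Claimed.Agent.R210.FE.Defs Claimed.Agent.R210.FE.Unif
  Claimed.Agent.R210.OT.Ifc

variable {X : Type*} [MetricSpace X] [MeasurableSpace X] [BorelSpace X]
  [CompleteSpace X] [TopologicalSpace.SeparableSpace X]
variable {m μ₀ μ₁ : Measure X}

/-- pointwise: `|d(p,z)² - d(z,x)²| ≤ 2 D r + r²` if `d(p,x) ≤ r`, `d(z,x) ≤ D` -/
theorem fe_sq_close {x p z : X} {r D : ℝ} (hp : dist p x ≤ r) (hz : dist z x ≤ D) :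
    |dist p z ^ 2 - dist z x ^ 2| ≤ 2 * D * r + r ^ 2 := by
  have h1 : dist p z ≤ dist p x + dist z x := by
    have := dist_triangle p x z
    rwa [dist_comm x z] at this
  have h2 : dist z x ≤ dist p z + dist p x := by
    have := dist_triangle z p x
    rwa [dist_comm z p] at this
  have ha : 0 ≤ dist p z := dist_nonneg
  have hb : 0 ≤ dist z x := dist_nonneg
  have hc : 0 ≤ dist p x := dist_nonneg
  rw [abs_le]
  constructor <;> nlinarith

/-- every coupling `q` of `(μ₀, μ₁)` has cost within `2 D r + r²` of `I = ∫ d(z,x)² dμ₁`: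
`q`-a.e. `p.1 ∈ closedBall x r`, `p.2 ∈ closedBall x D` (`ot_coupling_conc`), then `fe_sq_close`;
`∫⁻ ofReal (d(p.2,x)²) dq = ∫⁻ ofReal (d(z,x)²) dμ₁` (`lintegral_map`), `= ofReal I`
(`ofReal_integral_eq_lintegral_ofReal`; the integrand is bounded by `D²` a.e.); `q` is a probability measure. -/
theorem fe_cost_bounds [IsProbabilityMeasure μ₀] [IsProbabilityMeasure μ₁] {x : X} {r D : ℝ}
    (hr : 0 ≤ r) (hD : 0 ≤ D) (h0 : μ₀ (Metric.closedBall x r)ᶜ = 0)
    (h1 : μ₁ (Metric.closedBall x D)ᶜ = 0) {q : Measure (X × X)} (hq : IsCoupling q μ₀ μ₁) :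
    ENNReal.ofReal ((∫ z, dist z x ^ 2 ∂μ₁) - (2 * D * r + r ^ 2)) ≤ QuadraticTransportCost q ∧
      QuadraticTransportCost q ≤ ENNReal.ofReal ((∫ z, dist z x ^ 2 ∂μ₁) + (2 * D * r + r ^ 2)) := by
  have hqp : IsProbabilityMeasure q := ot_coupling_prob hq
  have he : 0 ≤ 2 * D * r + r ^ 2 := by positivity
  have hconc : q (Metric.closedBall x r ×ˢ Metric.closedBall x D)ᶜ = 0 :=
    ot_coupling_conc hq Metric.isClosed_closedBall.measurableSet
      Metric.isClosed_closedBall.measurableSet h0 h1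
  have hae : ∀ᵐ p ∂q, p ∈ Metric.closedBall x r ×ˢ Metric.closedBall x D := by
    rw [ae_iff]; exact hconc
  have hmeas : Measurable (fun z : X => ENNReal.ofReal (dist z x ^ 2)) :=
    ((measurable_id.dist measurable_const).pow_const 2).ennreal_ofReal
  -- the integral of the second marginal
  have hI : ∫⁻ p, ENNReal.ofReal (dist p.2 x ^ 2) ∂q = ENNReal.ofReal (∫ z, dist z x ^ 2 ∂μ₁) := by
    have e1 : ∫⁻ p, ENNReal.ofReal (dist p.2 x ^ 2) ∂q
        = ∫⁻ z, ENNReal.ofReal (dist z x ^ 2) ∂μ₁ := by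
      rw [← hq.2, lintegral_map hmeas measurable_snd]
    rw [e1]
    have hae1 : ∀ᵐ z ∂μ₁, z ∈ Metric.closedBall x D := by
      rw [ae_iff]; exact h1
    have hint : Integrable (fun z : X => dist z x ^ 2) μ₁ := by
      refine Integrable.of_bound
        ((measurable_id.dist measurable_const).pow_const 2).aestronglyMeasurable (D ^ 2) ?_
      filter_upwards [hae1] with z hz
      rw [Real.norm_eq_abs, abs_of_nonneg (by positivity)]
      have hz' : dist z x ≤ D := hz
      exact pow_le_pow_left₀ dist_nonneg hz' 2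
    rw [ofReal_integral_eq_lintegral_ofReal hint (ae_of_all _ fun z => by positivity)]
  have hcost : QuadraticTransportCost q = ∫⁻ p, ENNReal.ofReal (dist p.1 p.2 ^ 2) ∂q := by
    unfold QuadraticTransportCost
    refine lintegral_congr fun p => ?_
    rw [edist_dist, ENNReal.ofReal_pow dist_nonneg]
  have hconst : ∫⁻ _p : X × X, ENNReal.ofReal (2 * D * r + r ^ 2) ∂q
      = ENNReal.ofReal (2 * D * r + r ^ 2) := by
    rw [lintegral_const, measure_univ, mul_one]
  have hm2 : Measurable (fun p : X × X => ENNReal.ofReal (dist p.2 x ^ 2)) :=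
    hmeas.comp measurable_snd
  constructor
  · rw [ENNReal.ofReal_sub _ he, tsub_le_iff_right, ← hI, hcost, ← hconst,
      ← lintegral_add_right _ measurable_const]
    refine lintegral_mono_ae ?_
    filter_upwards [hae] with p hp
    have hp1 : dist p.1 x ≤ r := hp.1
    have hp2 : dist p.2 x ≤ D := hp.2
    have := (abs_le.1 (fe_sq_close hp1 hp2)).1
    rw [← ENNReal.ofReal_add (by positivity) he]
    exact ENNReal.ofReal_le_ofReal (by linarith)
  · rw [ENNReal.ofReal_add (integral_nonneg fun z => by positivity) he, ← hI, hcost, ← hconst,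
      ← lintegral_add_right _ measurable_const]
    refine lintegral_mono_ae ?_
    filter_upwards [hae] with p hp
    have hp1 : dist p.1 x ≤ r := hp.1
    have hp2 : dist p.2 x ≤ D := hp.2
    have := (abs_le.1 (fe_sq_close hp1 hp2)).2
    rw [← ENNReal.ofReal_add (by positivity) he]
    exact ENNReal.ofReal_le_ofReal (by linarith)

/-- consequence for the infimum (`le_iInf₂` for the lower bound; `ot_W2sq_le_cost (ot_coupling_prod μ₀ μ₁)` for the
upper bound; then `ENNReal.toReal`) -/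
theorem fe_W2_dirac [IsProbabilityMeasure μ₀] [IsProbabilityMeasure μ₁] {x : X} {r D : ℝ}
    (hr : 0 ≤ r) (hD : 0 ≤ D) (h0 : μ₀ (Metric.closedBall x r)ᶜ = 0)
    (h1 : μ₁ (Metric.closedBall x D)ᶜ = 0) :
    |W2sqR μ₀ μ₁ - ∫ z, dist z x ^ 2 ∂μ₁| ≤ 2 * D * r + r ^ 2 := by
  have he : 0 ≤ 2 * D * r + r ^ 2 := by positivity
  have hI0 : 0 ≤ ∫ z, dist z x ^ 2 ∂μ₁ := integral_nonneg fun z => by positivity
  have hlow : ENNReal.ofReal ((∫ z, dist z x ^ 2 ∂μ₁) - (2 * D * r + r ^ 2)) ≤ W2sq μ₀ μ₁ :=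
    le_iInf₂ fun q hq => (fe_cost_bounds hr hD h0 h1 hq).1
  have hup : W2sq μ₀ μ₁ ≤ ENNReal.ofReal ((∫ z, dist z x ^ 2 ∂μ₁) + (2 * D * r + r ^ 2)) :=
    (ot_W2sq_le_cost (ot_coupling_prod μ₀ μ₁)).trans
      (fe_cost_bounds hr hD h0 h1 (ot_coupling_prod μ₀ μ₁)).2
  have hfin : W2sq μ₀ μ₁ ≠ ∞ := ne_top_of_le_ne_top ENNReal.ofReal_ne_top hup
  have h1' : (∫ z, dist z x ^ 2 ∂μ₁) - (2 * D * r + r ^ 2) ≤ W2sqR μ₀ μ₁ := by
    unfold W2sqR
    exact (ENNReal.ofReal_le_iff_le_toReal hfin).1 hlow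
  have h2' : W2sqR μ₀ μ₁ ≤ (∫ z, dist z x ^ 2 ∂μ₁) + (2 * D * r + r ^ 2) := by
    unfold W2sqR
    exact ENNReal.toReal_le_of_le_ofReal (by positivity) hup
  rw [abs_le]
  constructor <;> linarith

/-- the form used in `FE/Int.lean`: `fe_W2_dirac` with `D = 21 l / 20`; `2 D r + r² ≤ 3 l r`;
`∫ d(z,x)² = 2 ∫ wfun x` (`integral_const_mul`, `wfun x z = d(z,x)²/2`) -/
theorem fe_W2_close (hfull : FullSupport m) (hfin : FiniteOnBoundedSets m) {x y : X} {l r : ℝ}
    (hl : 0 < l) (hxy : dist x y = l) (hr0 : 0 < r) (hr : r ≤ l / 20) {A : Set X}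
    (hA : MeasurableSet A) (hAsub : A ⊆ Metric.ball y (l / 20)) (hApos : m A ≠ 0) :
    |W2sqR (fe_unif m (Metric.ball x r)) (fe_unif m A) - 2 * ∫ z, wfun x z ∂(fe_unif m A)|
      ≤ 3 * l * r := by
  have hAb : Bornology.IsBounded A := Metric.isBounded_ball.subset hAsub
  have hp0 : IsProbabilityMeasure (fe_unif m (Metric.ball x r)) :=
    fe_unif_prob (fe_ball_ne_zero hfull x hr0) (fe_bounded_ne_top hfin Metric.isBounded_ball)
  have hp1 : IsProbabilityMeasure (fe_unif m A) := fe_unif_prob hApos (fe_bounded_ne_top hfin hAb)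
  have h0 : fe_unif m (Metric.ball x r) (Metric.closedBall x r)ᶜ = 0 :=
    fe_unif_compl measurableSet_ball Metric.ball_subset_closedBall
  have hsub : A ⊆ Metric.closedBall x (21 * l / 20) := by
    intro z hz
    have hz' : dist z y < l / 20 := hAsub hz
    have : dist z x ≤ dist z y + dist y x := dist_triangle z y x
    rw [dist_comm y x, hxy] at this
    rw [Metric.mem_closedBall]
    linarith
  have h1 : fe_unif m A (Metric.closedBall x (21 * l / 20))ᶜ = 0 := fe_unif_compl hA hsub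
  have key := fe_W2_dirac (μ₀ := fe_unif m (Metric.ball x r)) (μ₁ := fe_unif m A) (x := x)
    hr0.le (by positivity : (0:ℝ) ≤ 21 * l / 20) h0 h1
  have hw : 2 * ∫ z, wfun x z ∂(fe_unif m A) = ∫ z, dist z x ^ 2 ∂(fe_unif m A) := by
    rw [← integral_const_mul]
    refine integral_congr_ae (ae_of_all _ fun z => ?_)
    simp only [wfun]
    ring
  rw [hw]
  refine key.trans ?_
  nlinarith

end Claimed.Agent.R210.FE.Cost
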