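/-
Row 210 (S0432), layer FE, architect helper241.  File Cut: the cut-off `fe_cut y ρ z = max 0 (min 1 (2 - d(z,y)/ρ))`
and products `fe_cut y ρ * g` with `g` Lipschitz and small on `closedBall y (2ρ)`.  Metric spaces only.
-/
import Claimed.Agent.R210.FE.Defs

set_option autoImplicit false

open Claims.C0366 Claims.C0366.WeakHessian
open Set Filter MeasureTheory
open scoped ENNReal NNReal Topology

namespace Claimed.Agent.R210.FE.Cut

open Claimed.Agent.R210.Defs Claimed.Agent.R210.FE.Defs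

variable {X : Type*} [MetricSpace X]

theorem fe_cut_nonneg (y : X) (ρ : ℝ) (z : X) : 0 ≤ fe_cut y ρ z := by
  unfold fe_cut
  exact le_max_left _ _

theorem fe_cut_le_one (y : X) (ρ : ℝ) (z : X) : fe_cut y ρ z ≤ 1 := by
  unfold fe_cut
  exact max_le zero_le_one (min_le_left _ _)

theorem fe_cut_eq_one {y z : X} {ρ : ℝ} (hρ : 0 < ρ) (hz : dist z y ≤ ρ) : fe_cut y ρ z = 1 := by
  unfold fe_cut
  have h1 : dist z y / ρ ≤ 1 := (div_le_one hρ).2 hz
  rw [min_eq_left (by linarith), max_eq_right zero_le_one]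

theorem fe_cut_eq_zero {y z : X} {ρ : ℝ} (hρ : 0 < ρ) (hz : 2 * ρ ≤ dist z y) :
    fe_cut y ρ z = 0 := by
  unfold fe_cut
  have h1 : 2 ≤ dist z y / ρ := (le_div_iff₀ hρ).2 hz
  exact max_eq_left ((min_le_right _ _).trans (by linarith))

theorem fe_cut_dist_le (y : X) {ρ : ℝ} (hρ : 0 < ρ) (z z' : X) :
    |fe_cut y ρ z - fe_cut y ρ z'| ≤ dist z z' / ρ := by
  unfold fe_cut
  have h1 : |max 0 (min 1 (2 - dist z y / ρ)) - max 0 (min 1 (2 - dist z' y / ρ))| ≤
      |min 1 (2 - dist z y / ρ) - min 1 (2 - dist z' y / ρ)| := by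
    have := abs_max_sub_max_le_max (0 : ℝ) (min 1 (2 - dist z y / ρ)) 0
      (min 1 (2 - dist z' y / ρ))
    simpa using this
  have h2 : |min 1 (2 - dist z y / ρ) - min 1 (2 - dist z' y / ρ)| ≤
      |(2 - dist z y / ρ) - (2 - dist z' y / ρ)| := by
    have := abs_min_sub_min_le_max (1 : ℝ) (2 - dist z y / ρ) 1 (2 - dist z' y / ρ)
    simpa using this
  have h3 : |(2 - dist z y / ρ) - (2 - dist z' y / ρ)| = |dist z y - dist z' y| / ρ := by
    have : (2 - dist z y / ρ) - (2 - dist z' y / ρ) = -((dist z y - dist z' y) / ρ) := by ring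
    rw [this, abs_neg, abs_div, abs_of_pos hρ]
  have h4 : |dist z y - dist z' y| ≤ dist z z' := abs_dist_sub_le z z' y
  calc _ ≤ _ := h1
    _ ≤ _ := h2
    _ = _ := h3
    _ ≤ _ := div_le_div_of_nonneg_right h4 hρ.le

theorem fe_cut_mul_eq_zero {y : X} {ρ : ℝ} (hρ : 0 < ρ) (g : X → ℝ) {z : X}
    (hz : z ∉ Metric.closedBall y (2 * ρ)) : fe_cut y ρ z * g z = 0 := by
  have h1 : 2 * ρ ≤ dist z y := by
    rw [Metric.mem_closedBall, not_le] at hz
    exact hz.le
  rw [fe_cut_eq_zero hρ h1, zero_mul]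

/-- one point inside, the other outside -/
theorem fe_cut_aux_in_out {y : X} {ρ D e : ℝ} (hρ : 0 < ρ) (hD : 0 ≤ D) {g : X → ℝ}
    (hg : ∀ z ∈ Metric.closedBall y (2 * ρ), |g z| ≤ e) {z z' : X}
    (hz : z ∈ Metric.closedBall y (2 * ρ)) (hz' : z' ∉ Metric.closedBall y (2 * ρ)) :
    |fe_cut y ρ z * g z - fe_cut y ρ z' * g z'| ≤ (D + e / ρ) * dist z z' := by
  have h0 : fe_cut y ρ z' = 0 := by
    rw [Metric.mem_closedBall, not_le] at hz'
    exact fe_cut_eq_zero hρ hz'.le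
  have h1 : |fe_cut y ρ z| ≤ dist z z' / ρ := by
    have := fe_cut_dist_le y hρ z z'
    rwa [h0, sub_zero] at this
  rw [h0, zero_mul, sub_zero, abs_mul]
  have h2 : |fe_cut y ρ z| * |g z| ≤ dist z z' / ρ * e :=
    mul_le_mul h1 (hg z hz) (abs_nonneg _) (div_nonneg dist_nonneg hρ.le)
  have h3 : dist z z' / ρ * e = e / ρ * dist z z' := by ring
  have h4 : 0 ≤ D * dist z z' := mul_nonneg hD dist_nonneg
  nlinarith

/-- `|g| ≤ e` and `g` is `D`-Lipschitz on `closedBall y (2ρ)`  ⟹  `fe_cut y ρ * g` is globally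
`(D + e/ρ)`-Lipschitz.  (Both points inside: product rule. One point `z'` outside: the product vanishes at `z'`
and `|χ(z) g(z)| = |χ(z) - χ(z')| |g(z)| ≤ (d(z,z')/ρ) e`. Both outside: `0`.) -/
theorem fe_cut_mul_lipschitz {y : X} {ρ D e : ℝ} (hρ : 0 < ρ) (hD : 0 ≤ D) (he : 0 ≤ e) {g : X → ℝ}
    (hg : ∀ z ∈ Metric.closedBall y (2 * ρ), |g z| ≤ e)
    (hgl : ∀ z ∈ Metric.closedBall y (2 * ρ), ∀ z' ∈ Metric.closedBall y (2 * ρ),
      |g z - g z'| ≤ D * dist z z') :
    LipschitzWith (Real.toNNReal (D + e / ρ)) (fun z => fe_cut y ρ z * g z) := by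
  have hC : 0 ≤ D + e / ρ := add_nonneg hD (div_nonneg he hρ.le)
  refine LipschitzWith.of_dist_le_mul fun z z' => ?_
  rw [Real.coe_toNNReal _ hC, Real.dist_eq]
  by_cases hz : z ∈ Metric.closedBall y (2 * ρ)
  · by_cases hz' : z' ∈ Metric.closedBall y (2 * ρ)
    · have e1 : fe_cut y ρ z * g z - fe_cut y ρ z' * g z' =
          fe_cut y ρ z * (g z - g z') + (fe_cut y ρ z - fe_cut y ρ z') * g z' := by ring
      rw [e1]
      have h1 : |fe_cut y ρ z * (g z - g z')| ≤ D * dist z z' := by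
        rw [abs_mul, abs_of_nonneg (fe_cut_nonneg y ρ z)]
        calc fe_cut y ρ z * |g z - g z'| ≤ 1 * |g z - g z'| :=
              mul_le_mul_of_nonneg_right (fe_cut_le_one y ρ z) (abs_nonneg _)
          _ = |g z - g z'| := one_mul _
          _ ≤ _ := hgl z hz z' hz'
      have h2 : |(fe_cut y ρ z - fe_cut y ρ z') * g z'| ≤ e / ρ * dist z z' := by
        rw [abs_mul]
        calc |fe_cut y ρ z - fe_cut y ρ z'| * |g z'| ≤ dist z z' / ρ * e :=
              mul_le_mul (fe_cut_dist_le y hρ z z') (hg z' hz') (abs_nonneg _)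
                (div_nonneg dist_nonneg hρ.le)
          _ = _ := by ring
      calc _ ≤ |fe_cut y ρ z * (g z - g z')| + |(fe_cut y ρ z - fe_cut y ρ z') * g z'| :=
            abs_add_le _ _
        _ ≤ D * dist z z' + e / ρ * dist z z' := add_le_add h1 h2
        _ = _ := by ring
    · exact fe_cut_aux_in_out hρ hD hg hz hz'
  · by_cases hz' : z' ∈ Metric.closedBall y (2 * ρ)
    · have := fe_cut_aux_in_out (D := D) hρ hD hg hz' hz
      rw [abs_sub_comm, dist_comm]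
      exact this
    · rw [fe_cut_mul_eq_zero hρ g hz, fe_cut_mul_eq_zero hρ g hz', sub_zero, abs_zero]
      exact mul_nonneg hC dist_nonneg

theorem fe_cut_mul_abs_le {y : X} {ρ e : ℝ} (hρ : 0 < ρ) (he : 0 ≤ e) {g : X → ℝ}
    (hg : ∀ z ∈ Metric.closedBall y (2 * ρ), |g z| ≤ e) (z : X) : |fe_cut y ρ z * g z| ≤ e := by
  by_cases hz : z ∈ Metric.closedBall y (2 * ρ)
  · rw [abs_mul, abs_of_nonneg (fe_cut_nonneg y ρ z)]
    calc fe_cut y ρ z * |g z| ≤ 1 * |g z| :=
          mul_le_mul_of_nonneg_right (fe_cut_le_one y ρ z) (abs_nonneg _)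
      _ = |g z| := one_mul _
      _ ≤ e := hg z hz
  · rw [fe_cut_mul_eq_zero hρ g hz, abs_zero]
    exact he

/-- `wfun x` is `D`-Lipschitz on the set where `d(·,x) ≤ D` -/
theorem fe_wfun_lip {x z z' : X} {D : ℝ} (hz : dist z x ≤ D) (hz' : dist z' x ≤ D) :
    |wfun x z - wfun x z'| ≤ D * dist z z' := by
  unfold wfun
  have e1 : dist z x ^ 2 / 2 - dist z' x ^ 2 / 2 =
      (dist z x + dist z' x) / 2 * (dist z x - dist z' x) := by ring
  rw [e1, abs_mul]
  have h1 : |(dist z x + dist z' x) / 2| ≤ D := by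
    rw [abs_of_nonneg (by positivity)]
    linarith
  have h2 : |dist z x - dist z' x| ≤ dist z z' := abs_dist_sub_le z z' x
  have hD : 0 ≤ D := dist_nonneg.trans hz
  exact mul_le_mul h1 h2 (abs_nonneg _) hD

end Claimed.Agent.R210.FE.Cut
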