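/-
Row 210 (S0432), layer FE, architect helper241.  File Pot: OT4 with the two sided bounds of the first potential.
The proof repeats the one of `OT.KPair.ot_exists_kpair` (helper578) and keeps the formula
`φ = ot_pot (support q) e = inf_p (d(·,p.2)²/2 + e p)`, `e ≥ 0`, `inf e = 0`.
-/
import Claimed.Agent.R210.FE.Defs
import Claimed.Agent.R210.OT.Ifc

set_option autoImplicit false

open Claims.C0366 Claims.C0366.WeakHessian
open Set Filter MeasureTheory
open scoped ENNReal NNReal Topology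

namespace Claimed.Agent.R210.FE.Pot

open Claimed.Agent.R210.Defs Claimed.Agent.R210.OT.Defs Claimed.Agent.R210.OT.Weak
  Claimed.Agent.R210.OT.Basic Claimed.Agent.R210.OT.Exist Claimed.Agent.R210.OT.Dual
  Claimed.Agent.R210.OT.Graph Claimed.Agent.R210.OT.CM Claimed.Agent.R210.OT.Pot
  Claimed.Agent.R210.OT.HLip Claimed.Agent.R210.OT.KPair

variable {X : Type*} [MetricSpace X] [MeasurableSpace X] [BorelSpace X] [CompleteSpace X]
  [TopologicalSpace.SeparableSpace X]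

variable {Γ : Set (X × X)} {e : X × X → ℝ} {S1 : Set X}

/-- lower bound of the potential -/
theorem fe_pot_ge (hΓ : Γ.Nonempty) (he0 : ∀ p ∈ Γ, 0 ≤ e p) (hS1 : ∀ p ∈ Γ, p.2 ∈ S1) {x : X}
    {D : ℝ} (hD0 : 0 ≤ D) (hD : ∀ y ∈ S1, D ≤ dist x y) : D ^ 2 / 2 ≤ ot_pot Γ e x := by
  haveI : Nonempty Γ := hΓ.to_subtype
  unfold ot_pot
  refine le_ciInf fun p => ?_
  have h1 := he0 p p.2
  have h2 := hD _ (hS1 p p.2)
  have h3 : D ^ 2 ≤ dist x (p : X × X).2 ^ 2 := pow_le_pow_left₀ hD0 h2 2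
  linarith

/-- one half of the Lipschitz estimate -/
theorem fe_pot_lip_aux (hΓ : Γ.Nonempty) (he0 : ∀ p ∈ Γ, 0 ≤ e p) (hS1 : ∀ p ∈ Γ, p.2 ∈ S1)
    {x x' : X} {D : ℝ} (hD : ∀ y ∈ S1, dist x y ≤ D ∧ dist x' y ≤ D) :
    ot_pot Γ e x ≤ ot_pot Γ e x' + D * dist x x' := by
  refine le_of_forall_pos_le_add fun ε hε => ?_
  obtain ⟨p, hp, hlt⟩ := ot_pot_exists_lt hΓ x' (t := ot_pot Γ e x' + ε) (by linarith)
  have h1 := ot_pot_le_of_mem he0 hp x
  obtain ⟨h2, h2'⟩ := hD _ (hS1 _ hp)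
  have h3 : dist x p.2 ≤ dist x x' + dist x' p.2 := dist_triangle _ _ _
  have h4 : 0 ≤ dist x p.2 := dist_nonneg
  have h5 : 0 ≤ dist x' p.2 := dist_nonneg
  have h6 : 0 ≤ dist x x' := dist_nonneg
  have h7 : dist x p.2 ^ 2 / 2 - dist x' p.2 ^ 2 / 2 ≤ D * dist x x' := by
    rcases le_total (dist x' p.2) (dist x p.2) with h | h
    · have e1 : dist x p.2 ^ 2 / 2 - dist x' p.2 ^ 2 / 2
          = (dist x p.2 - dist x' p.2) * ((dist x p.2 + dist x' p.2) / 2) := by ring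
      rw [e1, mul_comm D]
      exact mul_le_mul (by linarith) (by linarith) (by linarith) h6
    · have h8 : dist x p.2 ^ 2 ≤ dist x' p.2 ^ 2 := pow_le_pow_left₀ h4 h 2
      have h9 : 0 ≤ D * dist x x' := mul_nonneg (h4.trans h2) h6
      linarith
  linarith

/-- Lipschitz estimate of the potential -/
theorem fe_pot_lip (hΓ : Γ.Nonempty) (he0 : ∀ p ∈ Γ, 0 ≤ e p) (hS1 : ∀ p ∈ Γ, p.2 ∈ S1)
    {x x' : X} {D : ℝ} (hD : ∀ y ∈ S1, dist x y ≤ D ∧ dist x' y ≤ D) :
    |ot_pot Γ e x - ot_pot Γ e x'| ≤ D * dist x x' := by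
  have h1 := fe_pot_lip_aux hΓ he0 hS1 hD
  have h2 := fe_pot_lip_aux hΓ he0 hS1 (x := x') (x' := x) (D := D) fun y hy => (hD y hy).symm
  rw [dist_comm x' x] at h2
  rw [abs_le]
  constructor <;> linarith

/-- **OT4**, structure of the first potential: `a = min(T, inf_p (d(·,p.2)²/2 + e p))` with `e ≥ 0`, `inf e = 0`
and `T` large.  On the prescribed bounded set `B`:
`inf_{S₁} d²/2 ≤ a ≤ sup_{S₁} d²/2` and `a` is `sup_{S₁} d`-Lipschitz. -/
theorem fe_OT4_struct {μ ν : Measure X} [IsProbabilityMeasure μ] [IsProbabilityMeasure ν]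
    {S₀ S₁ B : Set X} (hS₀ : IsCompact S₀) (hS₁ : IsCompact S₁) (hμ : μ S₀ᶜ = 0) (hν : ν S₁ᶜ = 0)
    (hB : Bornology.IsBounded B) :
    ∃ a b : X → ℝ, KPair μ ν a b ∧
      (∀ z ∈ B, ∀ D : ℝ, 0 ≤ D → (∀ y ∈ S₁, D ≤ dist z y) → D ^ 2 / 2 ≤ a z) ∧
      (∀ z ∈ B, ∀ D : ℝ, (∀ y ∈ S₁, dist z y ≤ D) → a z ≤ D ^ 2 / 2) ∧
      (∀ z ∈ B, ∀ z' ∈ B, ∀ D : ℝ, (∀ y ∈ S₁, dist z y ≤ D ∧ dist z' y ≤ D) →
        |a z - a z'| ≤ D * dist z z') := by
  classical
  obtain ⟨q, hq⟩ := ot_exists_optimal μ ν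
  have : IsProbabilityMeasure q := ot_coupling_prob hq.1
  have hconc : q (S₀ ×ˢ S₁)ᶜ = 0 :=
    ot_coupling_conc hq.1 hS₀.measurableSet hS₁.measurableSet hμ hν
  have hsub : q.support ⊆ S₀ ×ˢ S₁ :=
    Measure.support_subset_of_isClosed (hS₀.prod hS₁).isClosed (mem_ae_iff.2 hconc)
  have hfull : q q.supportᶜ = 0 := Measure.measure_compl_support
  have hne : q.support.Nonempty := by
    by_contra hcon
    rw [Set.not_nonempty_iff_eq_empty] at hcon
    rw [hcon, Set.compl_empty, measure_univ] at hfull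
    exact one_ne_zero hfull
  obtain ⟨C, hC⟩ : ∃ C : ℝ, ∀ x ∈ S₀ ∪ B, ∀ y ∈ S₁, dist x y ≤ C := by
    obtain ⟨C, hC⟩ := Metric.isBounded_iff.1 ((hS₀.isBounded.union hB).union hS₁.isBounded)
    exact ⟨C, fun x hx y hy => hC (Or.inl hx) (Or.inr hy)⟩
  have hfin : QuadraticTransportCost q ≠ ∞ := by
    have hle : QuadraticTransportCost q ≤ ∫⁻ _p, ENNReal.ofReal C ^ 2 ∂q := by
      unfold QuadraticTransportCost
      refine lintegral_mono_ae ?_
      have : ∀ᵐ p ∂q, p ∈ S₀ ×ˢ S₁ := mem_ae_iff.2 hconc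
      filter_upwards [this] with p hp
      rw [edist_dist]
      gcongr
      exact hC _ (Or.inl hp.1) _ hp.2
    rw [lintegral_const, measure_univ, mul_one] at hle
    exact ne_top_of_le_ne_top (by simp) hle
  obtain ⟨e, he0, heps, hpot⟩ := ot_exists_pot hne hsub (fun x hx y hy => hC x (Or.inl hx) y hy)
    (fun n p hp hc => ot_cm hq hfin n p hp hc)
  have hS1' : ∀ p ∈ q.support, p.2 ∈ S₁ := fun p hp => (hsub hp).2
  have hnn := ot_pot_nonneg (Γ := q.support) (e := e) he0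
  set T : ℝ := C ^ 2 / 2 with hTdef
  have hT0 : 0 ≤ T := by positivity
  have hT : ∀ x ∈ S₀ ∪ B, ot_pot q.support e x ≤ T := fun x hx =>
    ot_pot_le he0 heps hS1' (hC x hx)
  have hu1 : ∀ x, -T ≤ - min (ot_pot q.support e x) T := by
    intro x
    have := min_le_right (ot_pot q.support e x) T
    linarith
  have hu2 : ∀ x, - min (ot_pot q.support e x) T ≤ 0 := by
    intro x
    have := le_min (hnn x) hT0
    linarith
  obtain ⟨D1, hD1⟩ : ∃ D1 : ℝ, ∀ y ∈ S₁, ∀ y' ∈ S₁, dist y y' ≤ D1 := by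
    obtain ⟨C', hC'⟩ := Metric.isBounded_iff.1 hS₁.isBounded
    exact ⟨C', fun y hy y' hy' => hC' hy hy'⟩
  have hD1' : 0 ≤ D1 := by
    obtain ⟨p, hp⟩ := hne
    simpa using hD1 _ (hS1' p hp) _ (hS1' p hp)
  have hl1 := ot_pot_lipschitz hne he0 hS1' hT0 hD1
  have hl2 := ot_hopfLax_lipschitz (fun x => - min (ot_pot q.support e x) T) hD1' hu1 hu2
  have hb : ∀ y, -T ≤ hopfLax 1 (fun x => - min (ot_pot q.support e x) T) y ∧
      hopfLax 1 (fun x => - min (ot_pot q.support e x) T) y ≤ 0 := by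
    intro y
    refine ⟨ot_hopfLax_ge _ hu1 y, ?_⟩
    have := ot_hopfLax_le _ hu1 y y
    simp only [dist_self] at this
    have h2 := hu2 y
    linarith
  have hminB : ∀ z ∈ B, min (ot_pot q.support e z) T = ot_pot q.support e z := fun z hz =>
    min_eq_left (hT z (Or.inr hz))
  refine ⟨fun x => min (ot_pot q.support e x) T,
    hopfLax 1 (fun x => - min (ot_pot q.support e x) T), ?_, ?_, ?_, ?_⟩
  · refine ⟨⟨_, hl1⟩, ⟨_, hl2⟩, ⟨T, ?_⟩, ⟨T, ?_⟩, ?_, q, hq, ?_⟩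
    · intro x
      rw [abs_le]
      exact ⟨by have := le_min (hnn x) hT0; linarith, min_le_right _ _⟩
    · intro y
      rw [abs_le]
      exact ⟨(hb y).1, (hb y).2.trans hT0⟩
    · intro x y
      have := ot_hopfLax_le _ hu1 x y
      linarith
    · have hae : ∀ᵐ p ∂q, p ∈ q.support := mem_ae_iff.2 hfull
      filter_upwards [hae] with p hp
      apply le_antisymm
      · have := ot_hopfLax_le _ hu1 p.1 p.2
        linarith
      · have hmin : min (ot_pot q.support e p.1) T = ot_pot q.support e p.1 :=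
          min_eq_left (hT _ (Or.inl (hsub hp).1))
        have hge : dist p.1 p.2 ^ 2 / 2 - ot_pot q.support e p.1 ≤
            hopfLax 1 (fun x => - min (ot_pot q.support e x) T) p.2 := by
          apply ot_le_hopfLax
          intro x
          have h1 := ot_pot_key he0 hpot hp x
          have h2 := min_le_left (ot_pot q.support e x) T
          linarith
        simp only [hmin]
        linarith
  · intro z hz D hD0 hD
    simp only [hminB z hz]
    exact fe_pot_ge hne he0 hS1' hD0 hD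
  · intro z hz D hD
    simp only [hminB z hz]
    exact ot_pot_le he0 heps hS1' hD
  · intro z hz z' hz' D hD
    simp only [hminB z hz, hminB z' hz']
    exact fe_pot_lip hne he0 hS1' hD

end Claimed.Agent.R210.FE.Pot
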