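/-
Row 210 (S0432), layer FE, architect helper241.  NEEDS = what FE uses from the layers MO, FO, OT, GC, in the form
convenient for FE.  Each item is a short call of the upstream interface.
-/
import Claimed.Agent.R210.FE.Defs
import Claimed.Agent.R210.FO.Ifc
import Claimed.Agent.R210.OT.Ifc
import Claimed.Agent.R210.GC.Ifc
import Claimed.Agent.R210.MO.Main

set_option autoImplicit false

open Claims.C0366 Claims.C0366.WeakHessian
open Set Filter MeasureTheory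
open scoped ENNReal NNReal Topology

namespace Claimed.Agent.R210.FE.Need

open Claimed.Agent.R210.Defs Claimed.Agent.R210.FE.Defs Claimed.Agent.R210.FO.Defs
  Claimed.Agent.R210.FO.Ifc Claimed.Agent.R210.OT.Ifc Claimed.Agent.R210.GC.Defs
  Claimed.Agent.R210.GC.WG Claimed.Agent.R210.GC.Gam

variable {X : Type*} [MetricSpace X] [MeasurableSpace X] [BorelSpace X]
  [CompleteSpace X] [TopologicalSpace.SeparableSpace X] [ProperSpace X]
variable {m μ ν μ₀ μ₁ : Measure X} {π : Measure (Curve X)} {K N : ℝ} {F G : X → ℝ}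

/-! ### MO -/

-- upstream: MO (helper686, helper259), `MO.Main.mo_main`
/-- **(M')**, layer MO. -/
theorem fe_need_MO (hS : Std m K N) (hF : LipB F) (hGb : BoundedFunction G) (hGc : Continuous G)
    (hH : WeakHessianUpperBound m F G) {y : X} {ϱ τ κ : ℝ} (hϱ : 0 < ϱ) (hτ : 0 < τ)
    (hκ : ∀ z ∈ Metric.ball y (2 * ϱ + τ), G z ≤ κ) {M₀ M₁ : ℝ≥0}
    (h0 : BddDens m μ₀ M₀ y ϱ) (h1 : BddDens m μ₁ M₁ y ϱ) {a b : X → ℝ} (hab : KPair μ₀ μ₁ a b) :
    ∫ z, gamma m F a z ∂μ₀ + ∫ z, gamma m F b z ∂μ₁ ≤ κ * W2sqR μ₀ μ₁ :=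
  MO.Main.mo_main hS hF hGb hGc hH hϱ hτ hκ h0 h1 hab

/-! ### GC -/

-- upstream: GC (helper277)
theorem fe_need_localSobolev_lipB (hS : Std m K N) {f : X → ℝ} (hf : LipB f) : LocalSobolev m f :=
  gc_ls_of_lipLoc hS.finite (gc_lipLoc_of_lip hf.1)

-- upstream: GC (helper277)
theorem fe_need_localSobolev_wfun (hS : Std m K N) (x : X) : LocalSobolev m (wfun x) :=
  gc_ls_of_lipLoc hS.finite (gc_lipLoc_wfun x)

-- upstream: GC (helper277)
theorem fe_need_localSobolev_sub (hS : Std m K N) {f g : X → ℝ} (hf : LocalSobolev m f)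
    (hg : LocalSobolev m g) : LocalSobolev m (fun z => f z - g z) :=
  gc_ls_sub hS.finite hf hg

-- upstream: GC (helper469)
theorem fe_need_gamma_add (hS : Std m K N) {f g h : X → ℝ} (hf : LocalSobolev m f)
    (hg : LocalSobolev m g) (hh : LocalSobolev m h) :
    ∀ᵐ z ∂m, gamma m f (fun y => g y + h y) z = gamma m f g z + gamma m f h z :=
  gc_gamma_add_right hS hf hg hh

-- upstream: GC (helper469)
theorem fe_need_gamma_local (hS : Std m K N) {f g h : X → ℝ} (hf : LocalSobolev m f)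
    (hg : LocalSobolev m g) (hh : LocalSobolev m h) :
    ∀ᵐ z ∂m, g z = h z → gamma m f g z = gamma m f h z :=
  gc_gamma_eq_on_right hS hf hg hh

-- upstream: GC (helper469)
theorem fe_need_gamma_integrableOn (f g : X → ℝ) (o : X) (R : ℝ) :
    IntegrableOn (gamma m f g) (Metric.ball o R) m :=
  gc_gamma_integrableOn f g o R

/-! ### FO -/

-- upstream: FO (helper920)
/-- **FO3**, right derivative at an interior time. -/
theorem fe_need_FO3 (hS : Std m K N) {C M₀ M₁ : ℝ≥0} {o : X} {R : ℝ} (hπ : GeoPlan m μ₀ μ₁ π C)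
    (h0 : BddDens m μ₀ M₀ o R) (h1 : BddDens m μ₁ M₁ o R) {g : X → ℝ} (hg : LipB g)
    {s : ℝ} (hs0 : 0 < s) (hs1 : s < 1) {a b : X → ℝ} (hab : KPair (fo_mu π s) μ₁ a b) :
    HasDerivWithinAt (fun t : ℝ => ∫ z, g z ∂(fo_mu π t))
      (-((1 - s)⁻¹ * ∫ z, gamma m g a z ∂(fo_mu π s))) (Ioi s) s :=
  (fo_deriv_mid hS hπ h0 h1 hs0.le hs1 hab (fe_need_localSobolev_lipB hS hg)).mono
    Ioi_subset_Ici_self

-- upstream: FO (helper920)
/-- **FO4**: the potential of `(μ_s, μ₁)` on the `μ₁` side is `(1-s)` times the one of `(μ₀, μ₁)`,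
as far as `∫ Γ(g,·) dμ₁` is concerned. -/
theorem fe_need_FO4 (hS : Std m K N) {C M₀ M₁ : ℝ≥0} {o : X} {R : ℝ} (hπ : GeoPlan m μ₀ μ₁ π C)
    (h0 : BddDens m μ₀ M₀ o R) (h1 : BddDens m μ₁ M₁ o R) {g : X → ℝ} (hg : LipB g)
    {s : ℝ} (hs0 : 0 < s) (hs1 : s < 1) {a b a' b' : X → ℝ} (hab : KPair (fo_mu π s) μ₁ a b)
    (hba : KPair μ₁ μ₀ b' a') :
    ∫ z, gamma m g b z ∂μ₁ = (1 - s) * ∫ z, gamma m g b' z ∂μ₁ :=
  fo_back hS hπ h0 h1 (fo_kpair_swap hba) hs0.le hs1 (fo_kpair_swap hab)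
    (fe_need_localSobolev_lipB hS hg)

-- upstream: FO (helper920)
/-- constant speed of `s ↦ μ_s` -/
theorem fe_need_W2_interp {C M₀ M₁ : ℝ≥0} {o : X} {R : ℝ} (hπ : GeoPlan m μ₀ μ₁ π C)
    (h0 : BddDens m μ₀ M₀ o R) (h1 : BddDens m μ₁ M₁ o R) {s : ℝ} (hs0 : 0 ≤ s) (hs1 : s ≤ 1) :
    W2sqR (fo_mu π s) μ₁ = (1 - s) ^ 2 * W2sqR μ₀ μ₁ := by
  have h := fo_mu_W2_eq hπ h0 h1 (u := s) (v := 1) ⟨hs0, hs1⟩ ⟨zero_le_one, le_rfl⟩
  rw [fo_mu_one hπ] at h
  unfold W2sqR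
  rw [h, ENNReal.toReal_mul, ENNReal.toReal_ofReal (sq_nonneg _)]

/-! ### OT -/

-- upstream: OT (helper578)
/-- **OT4**, plain existence. -/
theorem fe_need_OT4 {M M' : ℝ≥0} {o : X} {R : ℝ} (hμ : BddDens m μ M o R) (hν : BddDens m ν M' o R) :
    ∃ a b : X → ℝ, KPair μ ν a b := by
  haveI := hμ.prob
  haveI := hν.prob
  obtain ⟨φ, -, hφ, -, -, hK⟩ := ot_exists_kpair μ ν (isCompact_closedBall o R)
    (isCompact_closedBall o R) hμ.conc hν.conc
  refine ⟨_, _, hK ((2 * R) ^ 2 / 2) fun x hx => hφ x (2 * R) fun y hy => ?_⟩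
  have h1 := Metric.mem_closedBall.1 hx
  have h2 := Metric.mem_closedBall.1 hy
  have h3 := dist_triangle_right x y o
  linarith

end Claimed.Agent.R210.FE.Need
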