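/-
Row 210 (S0432), layer FE, architect helper241.  File Weak: weak continuity of `f ↦ ∫_A Γ(v,f)` along uniformly
Lipschitz functions with supports in one ball which tend to `0` uniformly.  Consequence of `GC.Conv.gc_weak_cont_loc`.
-/
import Claimed.Agent.R210.FE.Need

set_option autoImplicit false

open Claims.C0366 Claims.C0366.WeakHessian
open Set Filter MeasureTheory
open scoped ENNReal NNReal Topology

namespace Claimed.Agent.R210.FE.Weak

open Claimed.Agent.R210.Defs Claimed.Agent.R210.FE.Defs Claimed.Agent.R210.FE.Need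
  Claimed.Agent.R210.GC.Defs Claimed.Agent.R210.GC.WG Claimed.Agent.R210.GC.Gam
  Claimed.Agent.R210.GC.Conv

variable {X : Type*} [MetricSpace X] [MeasurableSpace X] [BorelSpace X]
  [CompleteSpace X] [TopologicalSpace.SeparableSpace X] [ProperSpace X]
variable {m : Measure X} {K N : ℝ}

/-- a Lipschitz function vanishing off a closed ball is `LipC` (proper space) -/
theorem fe_lipC {f : X → ℝ} {L : ℝ≥0} {o : X} {R : ℝ} (hL : LipschitzWith L f)
    (hsupp : ∀ z, z ∉ Metric.closedBall o R → f z = 0) : LipC f := by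
  refine ⟨⟨L, hL⟩, ?_⟩
  exact HasCompactSupport.intro (isCompact_closedBall o R) hsupp

/-- `‖f‖_{L²} ≤ e · m(closedBall o R)^{1/2}` (write `f` as the indicator of the ball times `f`:
`eLpNorm_indicator_eq_eLpNorm_restrict`, `eLpNorm_le_of_ae_bound`) -/
theorem fe_eLpNorm_le {f : X → ℝ} {o : X} {R e : ℝ}
    (hsupp : ∀ z, z ∉ Metric.closedBall o R → f z = 0) (hfe : ∀ z, |f z| ≤ e) :
    eLpNorm (fun z => f z - 0) 2 m ≤
      m (Metric.closedBall o R) ^ (1 / 2 : ℝ) * ENNReal.ofReal e := by
  have hind : (fun z => f z - 0) = (Metric.closedBall o R).indicator f := by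
    funext z
    by_cases hz : z ∈ Metric.closedBall o R
    · simp [hz]
    · simp [hz, hsupp z hz]
  rw [hind, eLpNorm_indicator_eq_eLpNorm_restrict Metric.isClosed_closedBall.measurableSet]
  have h1 := eLpNorm_le_of_ae_bound (μ := m.restrict (Metric.closedBall o R)) (p := 2) (f := f) (C := e)
    (Eventually.of_forall fun z => by rw [Real.norm_eq_abs]; exact hfe z)
  refine h1.trans (le_of_eq ?_)
  rw [Measure.restrict_apply_univ]
  congr 2
  norm_num

/-- `∫ |Df|² ≤ L² m(closedBall o R)`: `gc_wg_le_lip`, `gc_wg_nonneg`, `gc_wg_zero_on_level` (level `0`) -/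
theorem fe_energy_le (hS : Std m K N) {f : X → ℝ} {L : ℝ≥0} {o : X} {R : ℝ}
    (hL : LipschitzWith L f) (hsupp : ∀ z, z ∉ Metric.closedBall o R → f z = 0) :
    energy m f ≤ (L : ℝ) ^ 2 * (m (Metric.closedBall o R)).toReal := by
  have hls : LocalSobolev m f := gc_ls_of_lipLoc hS.finite (gc_lipLoc_of_lip ⟨L, hL⟩)
  have hfinB : m (Metric.closedBall o R) < ∞ := hS.finite _ Metric.isBounded_closedBall
  have hae : ∀ᵐ x ∂m, (weakGradient m f x) ^ 2 ≤
      (Metric.closedBall o R).indicator (fun _ => (L:ℝ) ^ 2) x := by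
    filter_upwards [gc_wg_le_lip hS.finite hL, gc_wg_nonneg (m := m) f,
      gc_wg_zero_on_level hS.finite hls 0] with x h1 h2 h3
    by_cases hx : x ∈ Metric.closedBall o R
    · rw [indicator_of_mem hx]
      exact pow_le_pow_left₀ h2 h1 2
    · rw [indicator_of_notMem hx, h3 (hsupp x hx)]
      simp
  have hint : Integrable ((Metric.closedBall o R).indicator (fun _ => (L:ℝ) ^ 2)) m :=
    (integrable_indicator_iff Metric.isClosed_closedBall.measurableSet).2
      (integrableOn_const hfinB.ne)
  unfold energy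
  calc ∫ x, (weakGradient m f x) ^ 2 ∂m
      ≤ ∫ x, (Metric.closedBall o R).indicator (fun _ => (L:ℝ) ^ 2) x ∂m :=
        integral_mono_of_nonneg (Eventually.of_forall fun x => sq_nonneg _) hint hae
    _ = (L : ℝ) ^ 2 * (m (Metric.closedBall o R)).toReal := by
        rw [integral_indicator Metric.isClosed_closedBall.measurableSet, setIntegral_const,
          smul_eq_mul, mul_comm]
        rfl

/-- `∫ 1_A Γ(f,v) = ∫_A Γ(v,f)` (`gc_gamma_comm`, `integral_indicator`) -/
theorem fe_indicator_gamma (hS : Std m K N) {f v : X → ℝ} (hf : LocalSobolev m f)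
    (hv : LocalSobolev m v) {A : Set X} (hA : MeasurableSet A) :
    ∫ z, A.indicator (fun _ => (1 : ℝ)) z * gamma m f v z ∂m = ∫ z in A, gamma m v f z ∂m := by
  rw [← integral_indicator hA]
  refine integral_congr_ae ?_
  filter_upwards [gc_gamma_comm hS.finite hf hv] with z hz
  by_cases hzA : z ∈ A
  · simp [hzA, hz]
  · simp [hzA]

/-- **weak continuity.**  `f_n` uniformly Lipschitz, supported in one ball, `f_n → 0` uniformly
(so `f_n → 0` in `L²` with bounded energy); `v` bounded Lipschitz; integration over a bounded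
measurable set.  Apply `gc_weak_cont_loc` with `fs = f`, limit `fun _ => 0`, `h = A.indicator 1`, `B = 1`,
`C = L² m(closedBall o R)`; the limit is `0` by `gc_gamma_const_left`. -/
theorem fe_weak (hS : Std m K N) {v : X → ℝ} (hv : LipB v) {f : ℕ → X → ℝ} {L : ℝ≥0} {o : X}
    {R : ℝ} (hL : ∀ n, LipschitzWith L (f n)) (hsupp : ∀ n z, z ∉ Metric.closedBall o R → f n z = 0)
    {e : ℕ → ℝ} (he : Tendsto e atTop (𝓝 0)) (hfe : ∀ n z, |f n z| ≤ e n)
    {A : Set X} (hA : MeasurableSet A) (hAb : Bornology.IsBounded A) :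
    Tendsto (fun n => ∫ z in A, gamma m v (f n) z ∂m) atTop (𝓝 0) := by
  have hvs : LocalSobolev m v := fe_need_localSobolev_lipB hS hv
  have hfs : ∀ n, Sobolev m (f n) := fun n => gc_sob_of_lipC hS.finite (fe_lipC (hL n) (hsupp n))
  have hfinB : m (Metric.closedBall o R) < ∞ := hS.finite _ Metric.isBounded_closedBall
  have hlim : gc_L2Lim m atTop f (fun _ => 0) := by
    unfold gc_L2Lim
    have hup : Tendsto (fun n => m (Metric.closedBall o R) ^ (1 / 2 : ℝ) * ENNReal.ofReal (e n))
        atTop (𝓝 0) := by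
      have h1 : Tendsto (fun n => ENNReal.ofReal (e n)) atTop (𝓝 0) := by
        have h3 := (ENNReal.continuous_ofReal.tendsto 0).comp he
        rw [ENNReal.ofReal_zero] at h3
        exact h3
      have h2 := ENNReal.Tendsto.const_mul (a := m (Metric.closedBall o R) ^ (1 / 2 : ℝ)) h1
        (Or.inr (ENNReal.rpow_ne_top_of_nonneg (by norm_num) hfinB.ne))
      simpa using h2
    exact tendsto_of_tendsto_of_tendsto_of_le_of_le tendsto_const_nhds hup (fun _ => zero_le)
      (fun n => fe_eLpNorm_le (hsupp n) (hfe n))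
  obtain ⟨R', hR'⟩ := hAb.subset_ball o
  have hw := gc_weak_cont_loc hS (l := atTop) (fs := f) (f := fun _ => 0) (v := v)
    (h := A.indicator (fun _ => (1:ℝ))) (B := 1)
    (C := (L : ℝ) ^ 2 * (m (Metric.closedBall o R)).toReal)
    (Eventually.of_forall hfs) hlim MemLp.zero'
    (Eventually.of_forall fun n => fe_energy_le hS (hL n) (hsupp n)) hvs
    ((measurable_const.indicator hA).aestronglyMeasurable)
    (Eventually.of_forall fun x => by
      by_cases hx : x ∈ A
      · simp [hx]
      · simp [hx])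
    ⟨o, R', Eventually.of_forall fun x hx => indicator_of_notMem (fun hxA => hx (hR' hxA)) _⟩
  have h0 : ∫ x, A.indicator (fun _ => (1:ℝ)) x * gamma m (fun _ => 0) v x ∂m = 0 := by
    have : ∀ᵐ x ∂m, A.indicator (fun _ => (1:ℝ)) x * gamma m (fun _ => 0) v x = 0 := by
      filter_upwards [gc_gamma_const_left hS 0 hvs] with x hx
      rw [hx, mul_zero]
    rw [integral_congr_ae this]
    simp
  rw [h0] at hw
  have heq : (fun n => ∫ z in A, gamma m v (f n) z ∂m) =
      fun n => ∫ x, A.indicator (fun _ => (1:ℝ)) x * gamma m (f n) v x ∂m := by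
    funext n
    exact (fe_indicator_gamma hS (hfs n).2.1 hvs hA).symm
  rw [heq]
  exact hw

end Claimed.Agent.R210.FE.Weak
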