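/-
Row 210 (S0432), layer FE, architect helper241.  File Limit: `r → 0`.
 * the radii `fe_rad l n`;
 * potentials `b n` from OT4 (structure) are `2 l r_n`-close to `wfun x` and `2l`-Lipschitz on `closedBall y (l/10)`;
 * `∫_A Γ(F, b n) → ∫_A Γ(F, wfun x)` (bilinearity, locality, weak continuity).
-/
import Claimed.Agent.R210.FE.Weak
import Claimed.Agent.R210.FE.Pot
import Claimed.Agent.R210.FE.Unif
import Claimed.Agent.R210.FE.Cut

set_option autoImplicit false

open Claims.C0366 Claims.C0366.WeakHessian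
open Set Filter MeasureTheory
open scoped ENNReal NNReal Topology

namespace Claimed.Agent.R210.FE.Limit

open Claimed.Agent.R210.Defs Claimed.Agent.R210.FE.Defs Claimed.Agent.R210.FE.Need
  Claimed.Agent.R210.FE.Unif Claimed.Agent.R210.FE.Cut Claimed.Agent.R210.FE.Weak
  Claimed.Agent.R210.FE.Pot

variable {X : Type*} [MetricSpace X] [MeasurableSpace X] [BorelSpace X]
  [CompleteSpace X] [TopologicalSpace.SeparableSpace X] [ProperSpace X]
variable {m : Measure X} {K N : ℝ} {F : X → ℝ}

theorem fe_rad_pos {l : ℝ} (hl : 0 < l) (n : ℕ) : 0 < fe_rad l n := by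
  unfold fe_rad; positivity

theorem fe_rad_le {l : ℝ} (hl : 0 < l) (n : ℕ) : fe_rad l n ≤ l / 20 := by
  unfold fe_rad
  have hn : (0 : ℝ) ≤ (n : ℝ) := Nat.cast_nonneg n
  exact div_le_div_of_nonneg_left hl.le (by norm_num) (by linarith)

theorem fe_rad_tendsto (l : ℝ) : Tendsto (fe_rad l) atTop (𝓝 0) := by
  have h := (tendsto_one_div_add_atTop_nhds_zero_nat (𝕜 := ℝ)).const_mul (l / 20)
  rw [mul_zero] at h
  refine h.congr fun n => ?_
  unfold fe_rad
  have hn : (n : ℝ) + 1 ≠ 0 := by positivity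
  field_simp

/-- the good potentials: apply `fe_OT4_struct` with `S₀ = closedBall y (l/20)`,
`S₁ = closedBall x r`, `B = closedBall y (l/10)`.  For `z ∈ B`: `9l/10 ≤ d(z,x) ≤ 11l/10`, and
`d(z,x) - r ≤ d(z,y') ≤ d(z,x) + r` for `y' ∈ S₁`; so `|b z - d(z,x)²/2| ≤ r d(z,x) + r²/2 ≤ 2 l r`. -/
theorem fe_exists_pot (hS : Std m K N) {x y : X} {l r : ℝ} (hl : 0 < l) (hxy : dist x y = l)
    (hr0 : 0 < r) (hr : r ≤ l / 20) {A : Set X} (hA : MeasurableSet A)
    (hAsub : A ⊆ Metric.ball y (l / 20)) (hApos : m A ≠ 0) :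
    ∃ b a : X → ℝ, KPair (fe_unif m A) (fe_unif m (Metric.ball x r)) b a ∧
      (∀ z ∈ Metric.closedBall y (l / 10), |b z - wfun x z| ≤ 2 * l * r) ∧
      (∀ z ∈ Metric.closedBall y (l / 10), ∀ z' ∈ Metric.closedBall y (l / 10),
        |b z - b z'| ≤ 2 * l * dist z z') := by
  have hAb : Bornology.IsBounded A := Metric.isBounded_ball.subset hAsub
  have : IsProbabilityMeasure (fe_unif m A) := fe_unif_prob hApos (fe_bounded_ne_top hS.finite hAb)
  have : IsProbabilityMeasure (fe_unif m (Metric.ball x r)) :=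
    fe_unif_prob (fe_ball_ne_zero hS.full x hr0) (fe_bounded_ne_top hS.finite Metric.isBounded_ball)
  obtain ⟨b, a, hK, hlow, hup, hlip⟩ := fe_OT4_struct (μ := fe_unif m A)
    (ν := fe_unif m (Metric.ball x r)) (S₀ := Metric.closedBall y (l / 20))
    (S₁ := Metric.closedBall x r) (B := Metric.closedBall y (l / 10))
    (isCompact_closedBall _ _) (isCompact_closedBall _ _)
    (fe_unif_compl hA (hAsub.trans Metric.ball_subset_closedBall))
    (fe_unif_compl measurableSet_ball Metric.ball_subset_closedBall) Metric.isBounded_closedBall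
  -- metric estimates
  have hd : ∀ z ∈ Metric.closedBall y (l / 10), 9 * l / 10 ≤ dist z x ∧ dist z x ≤ 11 * l / 10 := by
    intro z hz
    have h1 := Metric.mem_closedBall.1 hz
    have h2 := dist_triangle z y x
    have h3 := dist_triangle x z y
    rw [dist_comm y x] at h2
    rw [dist_comm x z] at h3
    constructor <;> linarith
  refine ⟨b, a, hK, fun z hz => ?_, fun z hz z' hz' => ?_⟩
  · obtain ⟨h1, h2⟩ := hd z hz
    have hl1 := hlow z hz (dist z x - r) (by linarith) (fun y' hy' => by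
      have h3 := Metric.mem_closedBall.1 hy'
      have h4 := dist_triangle z y' x
      linarith)
    have hu1 := hup z hz (dist z x + r) (fun y' hy' => by
      have h3 := Metric.mem_closedBall.1 hy'
      have h4 := dist_triangle z x y'
      rw [dist_comm x y'] at h4
      linarith)
    unfold wfun
    rw [abs_le]
    constructor <;> nlinarith
  · refine hlip z hz z' hz' (2 * l) fun y' hy' => ?_
    have h3 := Metric.mem_closedBall.1 hy'
    have h4 := dist_triangle z x y'
    have h5 := dist_triangle z' x y'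
    rw [dist_comm x y'] at h4 h5
    have h6 := (hd z hz).2
    have h7 := (hd z' hz').2
    constructor <;> linarith

/-- the localised difference `f = fe_cut y (l/20) * (b - wfun x)` -/
noncomputable def fe_loc (x y : X) (l : ℝ) (b : X → ℝ) (z : X) : ℝ :=
  fe_cut y (l / 20) z * (b z - wfun x z)

/-- uniform Lipschitz constant `6 l` (`fe_cut_mul_lipschitz` with `ρ = l/20`, `D = 4l`
(`2l` for `b`, `11l/10` for `wfun x`), `e = 2 l r ≤ l²/10`, `e/ρ ≤ 2l`) -/
theorem fe_loc_lipschitz {x y : X} {l r : ℝ} (hl : 0 < l) (hxy : dist x y = l) (hr0 : 0 < r)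
    (hr : r ≤ l / 20) {b : X → ℝ}
    (hclose : ∀ z ∈ Metric.closedBall y (l / 10), |b z - wfun x z| ≤ 2 * l * r)
    (hlip : ∀ z ∈ Metric.closedBall y (l / 10), ∀ z' ∈ Metric.closedBall y (l / 10),
      |b z - b z'| ≤ 2 * l * dist z z') :
    LipschitzWith (Real.toNNReal (6 * l)) (fe_loc x y l b) := by
  have e2 : 2 * (l / 20) = l / 10 := by ring
  have hd : ∀ z ∈ Metric.closedBall y (l / 10), dist z x ≤ 11 * l / 10 := by
    intro z hz
    have h1 := Metric.mem_closedBall.1 hz
    have h2 := dist_triangle z y x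
    rw [dist_comm y x] at h2
    linarith
  have h := fe_cut_mul_lipschitz (y := y) (ρ := l / 20) (D := 4 * l) (e := 2 * l * r)
    (g := fun z => b z - wfun x z) (by positivity) (by positivity) (by positivity)
    (by rw [e2]; exact hclose)
    (by
      rw [e2]
      intro z hz z' hz'
      have h1 := hlip z hz z' hz'
      have h2 := fe_wfun_lip (hd z hz) (hd z' hz')
      have h3 : (b z - wfun x z) - (b z' - wfun x z') = (b z - b z') - (wfun x z - wfun x z') := by
        ring
      have h4 : (0 : ℝ) ≤ dist z z' := dist_nonneg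
      calc |(b z - wfun x z) - (b z' - wfun x z')| = |(b z - b z') - (wfun x z - wfun x z')| := by
            rw [h3]
        _ ≤ |b z - b z'| + |wfun x z - wfun x z'| := abs_sub _ _
        _ ≤ 2 * l * dist z z' + 11 * l / 10 * dist z z' := add_le_add h1 h2
        _ ≤ 4 * l * dist z z' := by nlinarith)
  refine h.weaken (Real.toNNReal_le_toNNReal ?_)
  have h5 : 2 * l * r / (l / 20) = 40 * r := by
    field_simp
    ring
  rw [h5]
  linarith

theorem fe_loc_abs_le {x y : X} {l r : ℝ} (hl : 0 < l) (hr0 : 0 < r) {b : X → ℝ}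
    (hclose : ∀ z ∈ Metric.closedBall y (l / 10), |b z - wfun x z| ≤ 2 * l * r) (z : X) :
    |fe_loc x y l b z| ≤ 2 * l * r := by
  have e2 : 2 * (l / 20) = l / 10 := by ring
  exact fe_cut_mul_abs_le (y := y) (ρ := l / 20) (e := 2 * l * r) (g := fun z => b z - wfun x z)
    (by positivity) (by positivity) (by rw [e2]; exact hclose) z

theorem fe_loc_eq_zero {x y : X} {l : ℝ} (hl : 0 < l) (b : X → ℝ) {z : X}
    (hz : z ∉ Metric.closedBall y (l / 10)) : fe_loc x y l b z = 0 := by
  have e2 : 2 * (l / 20) = l / 10 := by ring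
  exact fe_cut_mul_eq_zero (y := y) (ρ := l / 20) (by positivity) (fun z => b z - wfun x z)
    (by rw [e2]; exact hz)

theorem fe_loc_eq {x y : X} {l : ℝ} (hl : 0 < l) (b : X → ℝ) {z : X}
    (hz : z ∈ Metric.ball y (l / 20)) : fe_loc x y l b z = b z - wfun x z := by
  unfold fe_loc
  rw [fe_cut_eq_one (by positivity) (Metric.mem_ball.1 hz).le, one_mul]

/-- bilinearity + locality: `∫_A Γ(F,b) = ∫_A Γ(F, fe_loc) + ∫_A Γ(F, wfun x)` for `A ⊆ ball y (l/20)`.
(`b = (b - w) + w` as functions; `fe_need_gamma_add`; `fe_need_gamma_local` with `fe_loc_eq` on `ball y (l/20)`;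
all integrands are integrable on `A` by `fe_need_gamma_integrableOn` + `IntegrableOn.mono_set`;
`LocalSobolev` of `b`, `fe_loc`, `F` by `fe_need_localSobolev_lipB`, of `wfun x` by `fe_need_localSobolev_wfun`.) -/
theorem fe_gamma_split (hS : Std m K N) (hF : LipB F) {x y : X} {l : ℝ} (hl : 0 < l) {A : Set X}
    (hA : MeasurableSet A) (hAsub : A ⊆ Metric.ball y (l / 20)) {b : X → ℝ} (hb : LipB b)
    (hf : LipB (fe_loc x y l b)) :
    ∫ z in A, gamma m F b z ∂m =
      ∫ z in A, gamma m F (fe_loc x y l b) z ∂m + ∫ z in A, gamma m F (wfun x) z ∂m := by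
  have hLF := fe_need_localSobolev_lipB hS hF
  have hLb := fe_need_localSobolev_lipB hS hb
  have hLf := fe_need_localSobolev_lipB hS hf
  have hLw := fe_need_localSobolev_wfun hS x
  have hLd := fe_need_localSobolev_sub hS hLb hLw
  have h1 := fe_need_gamma_add hS hLF hLd hLw
  have e1 : (fun z => (b z - wfun x z) + wfun x z) = b := by
    funext z
    ring
  rw [e1] at h1
  have h2 := fe_need_gamma_local hS hLF hLf hLd
  have hi1 : IntegrableOn (gamma m F (fe_loc x y l b)) A m :=
    (fe_need_gamma_integrableOn _ _ y (l / 20)).mono_set hAsub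
  have hi2 : IntegrableOn (gamma m F (wfun x)) A m :=
    (fe_need_gamma_integrableOn _ _ y (l / 20)).mono_set hAsub
  rw [← integral_add hi1 hi2]
  refine setIntegral_congr_ae hA ?_
  filter_upwards [h1, h2] with z hz1 hz2 hzA
  rw [hz1, hz2 (fe_loc_eq hl b (hAsub hzA))]

/-- **convergence of the left hand sides** -/
theorem fe_gamma_tendsto (hS : Std m K N) (hF : LipB F) {x y : X} {l : ℝ} (hl : 0 < l)
    (hxy : dist x y = l) {A : Set X} (hA : MeasurableSet A) (hAsub : A ⊆ Metric.ball y (l / 20))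
    {b : ℕ → X → ℝ} (hb : ∀ n, LipB (b n))
    (hclose : ∀ n, ∀ z ∈ Metric.closedBall y (l / 10), |b n z - wfun x z| ≤ 2 * l * fe_rad l n)
    (hlip : ∀ n, ∀ z ∈ Metric.closedBall y (l / 10), ∀ z' ∈ Metric.closedBall y (l / 10),
      |b n z - b n z'| ≤ 2 * l * dist z z') :
    Tendsto (fun n => ∫ z in A, gamma m F (b n) z ∂m) atTop
      (𝓝 (∫ z in A, gamma m F (wfun x) z ∂m)) := by
  have hL : ∀ n, LipschitzWith (Real.toNNReal (6 * l)) (fe_loc x y l (b n)) := fun n =>
    fe_loc_lipschitz hl hxy (fe_rad_pos hl n) (fe_rad_le hl n) (hclose n) (hlip n)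
  have hB : ∀ n z, |fe_loc x y l (b n) z| ≤ 2 * l * fe_rad l n := fun n z =>
    fe_loc_abs_le hl (fe_rad_pos hl n) (hclose n) z
  have hf : ∀ n, LipB (fe_loc x y l (b n)) := fun n => ⟨⟨_, hL n⟩, ⟨_, hB n⟩⟩
  have he : Tendsto (fun n => 2 * l * fe_rad l n) atTop (𝓝 0) := by
    simpa using (fe_rad_tendsto l).const_mul (2 * l)
  have h0 := fe_weak hS hF hL (fun n z hz => fe_loc_eq_zero hl (b n) hz) he hB hA
    (Metric.isBounded_ball.subset hAsub)
  have h1 := h0.add_const (∫ z in A, gamma m F (wfun x) z ∂m)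
  rw [zero_add] at h1
  refine h1.congr fun n => ?_
  exact (fe_gamma_split hS hF hl hA hAsub (hb n) (hf n)).symm

end Claimed.Agent.R210.FE.Limit
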