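/-
Row 210 (S0432), layer FE, architect helper241.  File Plan: tracks of a geodesic plan
`GeoPlan m μ₀ μ₁ π C` (`R210/Defs.lean`).   Only measure theory on `Curve X = C(Time, X)` (Borel σ-algebra);
measurability of evaluations: `CU.IfcBasic.cu_measurable_eval`, `cu_measurable_endpoints`.
-/
import Claimed.Agent.R210.FE.Defs
import Claimed.Agent.R210.CU.IfcBasic

set_option autoImplicit false

open Claims.C0366 Claims.C0366.WeakHessian
open Set Filter MeasureTheory
open scoped ENNReal NNReal Topology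

namespace Claimed.Agent.R210.FE.Plan

open Claimed.Agent.R210.Defs Claimed.Agent.R210.FE.Defs Claimed.Agent.R210.CU.IfcBasic

variable {X : Type*} [MetricSpace X] [MeasurableSpace X] [BorelSpace X]
  [TopologicalSpace.SeparableSpace X]
variable {m μ₀ μ₁ : Measure X} {π : Measure (Curve X)} {C : ℝ≥0}

/-- a.e. curve starts in a closed set which carries `μ₀`
(`hπ.opt.1.1 : map fst (endpointCoupling π) = μ₀`, `Measure.map_map`, `ae_map_iff` / `Measure.map_apply`) -/
theorem fe_ae_start (hπ : GeoPlan m μ₀ μ₁ π C) {S : Set X} (hS : MeasurableSet S)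
    (h0 : μ₀ Sᶜ = 0) : ∀ᵐ γ ∂π, γ timeZero ∈ S := by
  have h1 := hπ.opt.1.1
  rw [endpointCoupling, Measure.map_map measurable_fst cu_measurable_endpoints] at h1
  rw [← h1, Measure.map_apply (measurable_fst.comp cu_measurable_endpoints) hS.compl] at h0
  rw [ae_iff]
  exact h0

theorem fe_ae_end (hπ : GeoPlan m μ₀ μ₁ π C) {S : Set X} (hS : MeasurableSet S)
    (h1 : μ₁ Sᶜ = 0) : ∀ᵐ γ ∂π, γ timeOne ∈ S := by
  have h2 := hπ.opt.1.2
  rw [endpointCoupling, Measure.map_map measurable_snd cu_measurable_endpoints] at h2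
  rw [← h2, Measure.map_apply (measurable_snd.comp cu_measurable_endpoints) hS.compl] at h1
  rw [ae_iff]
  exact h1

/-- metric part: `d(γ_t, y) ≤ d(γ_t, γ_1) + ρ ≤ d(γ_0, γ_1) + ρ ≤ d(x,y) + r + 2ρ`. -/
theorem fe_geodesic_track {γ : Curve X} (hγ : IsGeodesic γ) {x y : X} {r ρ : ℝ}
    (h0 : γ timeZero ∈ Metric.closedBall x r) (h1 : γ timeOne ∈ Metric.closedBall y ρ) (t : Time) :
    dist (γ t) y ≤ dist x y + r + 2 * ρ := by
  rw [Metric.mem_closedBall] at h0 h1
  have h2 := hγ t timeOne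
  have ht0 : (0:ℝ) ≤ (t:ℝ) := t.2.1
  have ht1 : (t:ℝ) ≤ 1 := t.2.2
  have h3 : |(t:ℝ) - ((timeOne : Time) : ℝ)| ≤ 1 := by
    have : ((timeOne : Time) : ℝ) = 1 := rfl
    rw [this, abs_le]
    constructor <;> linarith
  have h4 : dist (γ t) (γ timeOne) ≤ dist (γ timeZero) (γ timeOne) := by
    rw [h2]
    calc _ ≤ 1 * dist (γ timeZero) (γ timeOne) := mul_le_mul_of_nonneg_right h3 dist_nonneg
      _ = _ := one_mul _
  have h5 : dist (γ timeZero) (γ timeOne) ≤ r + dist x y + ρ := by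
    calc dist (γ timeZero) (γ timeOne) ≤ dist (γ timeZero) x + dist x y + dist y (γ timeOne) :=
          dist_triangle4 _ _ _ _
      _ ≤ r + dist x y + ρ := by
          rw [dist_comm y]
          linarith
  calc dist (γ t) y ≤ dist (γ t) (γ timeOne) + dist (γ timeOne) y := dist_triangle _ _ _
    _ ≤ dist x y + r + 2 * ρ := by linarith

/-- a.e. curve starts in `closedBall x r`, ends in `closedBall y ρ` and is a geodesic -/
theorem fe_tracks (hπ : GeoPlan m μ₀ μ₁ π C) {x y : X} {r ρ : ℝ}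
    (h0 : μ₀ (Metric.closedBall x r)ᶜ = 0) (h1 : μ₁ (Metric.closedBall y ρ)ᶜ = 0) :
    ∀ᵐ γ ∂π, ∀ t : Time, dist (γ t) y ≤ dist x y + r + 2 * ρ := by
  filter_upwards [hπ.geo, fe_ae_start hπ Metric.isClosed_closedBall.measurableSet h0,
    fe_ae_end hπ Metric.isClosed_closedBall.measurableSet h1] with γ hγ a0 a1 t
  exact fe_geodesic_track hγ a0 a1 t

end Claimed.Agent.R210.FE.Plan
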