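/-
Row 210 (S0432), layer FE, architect helper241.  File Step: the inequality for fixed `r` (assembly).
  `∫ Γ(F,b) dμ₁ ≤ ∫ F dμ₁ - ∫ F dμ₀ + (κ/2) W₂²(μ₀,μ₁)`,  `μ₀ = unif (ball x r)`, `μ₁ = unif A`, `(b,a)` any
Kantorovich pair of `(μ₁, μ₀)`.
-/
import Claimed.Agent.R210.FE.Need
import Claimed.Agent.R210.FE.Unif
import Claimed.Agent.R210.FE.Plan
import Claimed.Agent.R210.FE.Calc
import Claimed.Agent.R210.GM.Ifc

set_option autoImplicit false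

open Claims.C0366 Claims.C0366.WeakHessian
open Set Filter MeasureTheory
open scoped ENNReal NNReal Topology

namespace Claimed.Agent.R210.FE.Step

open Claimed.Agent.R210.Defs Claimed.Agent.R210.FE.Defs Claimed.Agent.R210.FE.Need
  Claimed.Agent.R210.FE.Unif Claimed.Agent.R210.FE.Plan Claimed.Agent.R210.FE.Calc
  Claimed.Agent.R210.FO.Defs Claimed.Agent.R210.FO.Ifc

variable {X : Type*} [MetricSpace X] [MeasurableSpace X] [BorelSpace X]
  [CompleteSpace X] [TopologicalSpace.SeparableSpace X] [ProperSpace X]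
variable {m μ₀ μ₁ : Measure X} {π : Measure (Curve X)} {K N : ℝ} {F G : X → ℝ}

/-- right derivative of `β(t) = ∫ F dμ_t` at an interior time and its lower bound -/
theorem fe_deriv_bound (hS : Std m K N) (hF : LipB F) (hGb : BoundedFunction G)
    (hGc : Continuous G) (hH : WeakHessianUpperBound m F G) {y : X} {ϱ τ κ : ℝ} (hϱ : 0 < ϱ)
    (hτ : 0 < τ) (hκ : ∀ z ∈ Metric.ball y (2 * ϱ + τ), G z ≤ κ) {M₀ M₁ C : ℝ≥0}
    (hπ : GeoPlan m μ₀ μ₁ π C) (htr : ∀ᵐ γ ∂π, ∀ t : Time, dist (γ t) y ≤ ϱ)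
    (h0 : BddDens m μ₀ M₀ y ϱ) (h1 : BddDens m μ₁ M₁ y ϱ) {b' a' : X → ℝ}
    (hba : KPair μ₁ μ₀ b' a') {s : ℝ} (hs : s ∈ Ioo (0 : ℝ) 1) :
    ∃ d : ℝ, HasDerivWithinAt (fun t : ℝ => ∫ z, F z ∂(fo_mu π t)) d (Ioi s) s ∧
      (∫ z, gamma m F b' z ∂μ₁) - κ * W2sqR μ₀ μ₁ * (1 - s) ≤ d := by
  obtain ⟨hs0, hs1⟩ := hs
  have hμs : BddDens m (fo_mu π s) C y ϱ := fo_mu_bdd_of_tracks hπ htr s
  obtain ⟨a, b, hab⟩ := fe_need_OT4 hμs h1
  refine ⟨_, fe_need_FO3 hS hπ h0 h1 hF hs0 hs1 hab, ?_⟩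
  have hMO := fe_need_MO hS hF hGb hGc hH hϱ hτ hκ hμs h1 hab
  rw [fe_need_W2_interp hπ h0 h1 hs0.le hs1.le, fe_need_FO4 hS hπ h0 h1 hF hs0 hs1 hab hba] at hMO
  have h1s : 0 < 1 - s := by linarith
  set Ia := ∫ z, gamma m F a z ∂(fo_mu π s)
  set Ab := ∫ z, gamma m F b' z ∂μ₁
  set W := W2sqR μ₀ μ₁
  have h2 : Ia ≤ (1 - s) * (κ * W * (1 - s) - Ab) := by nlinarith
  have h3 : (1 - s)⁻¹ * Ia ≤ κ * W * (1 - s) - Ab := by
    rw [inv_mul_le_iff₀ h1s]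
    exact h2
  linarith

/-- the integrated inequality along a plan -/
theorem fe_plan_ineq (hS : Std m K N) (hF : LipB F) (hGb : BoundedFunction G)
    (hGc : Continuous G) (hH : WeakHessianUpperBound m F G) {y : X} {ϱ τ κ : ℝ} (hϱ : 0 < ϱ)
    (hτ : 0 < τ) (hκ : ∀ z ∈ Metric.ball y (2 * ϱ + τ), G z ≤ κ) {M₀ M₁ C : ℝ≥0}
    (hπ : GeoPlan m μ₀ μ₁ π C) (htr : ∀ᵐ γ ∂π, ∀ t : Time, dist (γ t) y ≤ ϱ)
    (h0 : BddDens m μ₀ M₀ y ϱ) (h1 : BddDens m μ₁ M₁ y ϱ) {b' a' : X → ℝ}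
    (hba : KPair μ₁ μ₀ b' a') :
    ∫ z, gamma m F b' z ∂μ₁ ≤ ∫ z, F z ∂μ₁ - ∫ z, F z ∂μ₀ + κ / 2 * W2sqR μ₀ μ₁ := by
  have hc : Continuous (fun t : ℝ => ∫ z, F z ∂(fo_mu π t)) :=
    fo_mu_continuous hS.finite hπ h0 h1 (fe_integrableOn_F hS.finite hF Metric.isBounded_closedBall)
  have h := fe_calc (β := fun t : ℝ => ∫ z, F z ∂(fo_mu π t)) (A := ∫ z, gamma m F b' z ∂μ₁)
    (c := κ * W2sqR μ₀ μ₁) hc.continuousOn
    (fun s hs => fe_deriv_bound hS hF hGb hGc hH hϱ hτ hκ hπ htr h0 h1 hba hs)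
  simp only [fo_mu_zero hπ, fo_mu_one hπ] at h
  linarith

/-- **Step A**: fixed `r`. -/
theorem fe_step (hS : Std m K N) (hF : LipB F) (hGb : BoundedFunction G) (hGc : Continuous G)
    (hH : WeakHessianUpperBound m F G) {x y : X} {l κ r : ℝ} (hl : 0 < l) (hxy : dist x y = l)
    (hκ : ∀ z ∈ Metric.ball y (3 * l), G z ≤ κ) (hr0 : 0 < r) (hr : r ≤ l / 20) {A : Set X}
    (hA : MeasurableSet A) (hAsub : A ⊆ Metric.ball y (l / 20)) (hApos : m A ≠ 0) {b a : X → ℝ}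
    (hba : KPair (fe_unif m A) (fe_unif m (Metric.ball x r)) b a) :
    ∫ z, gamma m F b z ∂(fe_unif m A) ≤
      ∫ z, F z ∂(fe_unif m A) - ∫ z, F z ∂(fe_unif m (Metric.ball x r)) +
        κ / 2 * W2sqR (fe_unif m (Metric.ball x r)) (fe_unif m A) := by
  have hϱ : (0 : ℝ) < 6 * l / 5 := by positivity
  have hτ : (0 : ℝ) < l / 2 := by positivity
  have hκ' : ∀ z ∈ Metric.ball y (2 * (6 * l / 5) + l / 2), G z ≤ κ := fun z hz =>
    hκ z (Metric.ball_subset_ball (by linarith) hz)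
  have hAtop : m A ≠ ∞ :=
    fe_bounded_ne_top hS.finite (Metric.isBounded_ball.subset hAsub)
  have hB0 : m (Metric.ball x r) ≠ 0 := fe_ball_ne_zero hS.full x hr0
  have hBtop : m (Metric.ball x r) ≠ ∞ := fe_bounded_ne_top hS.finite Metric.isBounded_ball
  have sub1 : A ⊆ Metric.closedBall y (6 * l / 5) := fun z hz =>
    Metric.mem_closedBall.2 (by have := Metric.mem_ball.1 (hAsub hz); linarith)
  have sub0 : Metric.ball x r ⊆ Metric.closedBall y (6 * l / 5) := fun z hz =>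
    Metric.mem_closedBall.2 (by
      have h1 := Metric.mem_ball.1 hz
      have h2 := dist_triangle z x y
      linarith)
  have h1 := fe_unif_bddDens hA hApos hAtop sub1
  have h0 := fe_unif_bddDens Metric.isOpen_ball.measurableSet hB0 hBtop sub0
  obtain ⟨π, hπ, -, -, -⟩ := GM.Ifc.gm_GM4 hS h0 h1 (GM.Ifc.gm_HD_two_mul h0 h1) (by positivity)
  have c0 : fe_unif m (Metric.ball x r) (Metric.closedBall x r)ᶜ = 0 :=
    fe_unif_compl Metric.isOpen_ball.measurableSet Metric.ball_subset_closedBall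
  have c1 : fe_unif m A (Metric.closedBall y (l / 20))ᶜ = 0 :=
    fe_unif_compl hA (hAsub.trans Metric.ball_subset_closedBall)
  have htr : ∀ᵐ γ ∂π, ∀ t : Time, dist (γ t) y ≤ 6 * l / 5 := by
    filter_upwards [fe_tracks hπ c0 c1] with γ hγ t
    have := hγ t
    rw [hxy] at this
    linarith
  exact fe_plan_ineq hS hF hGb hGc hH hϱ hτ hκ' hπ htr h0 h1 hba

end Claimed.Agent.R210.FE.Step
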