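/-
Row 210 (S0432), layer FE, architect helper241.  File Int: the integrated form of (E'') (assembly).
-/
import Claimed.Agent.R210.FE.Step
import Claimed.Agent.R210.FE.Cost
import Claimed.Agent.R210.FE.Limit

set_option autoImplicit false

open Claims.C0366 Claims.C0366.WeakHessian
open Set Filter MeasureTheory
open scoped ENNReal NNReal Topology

namespace Claimed.Agent.R210.FE.Int

open Claimed.Agent.R210.Defs Claimed.Agent.R210.FE.Defs Claimed.Agent.R210.FE.Need
  Claimed.Agent.R210.FE.Unif Claimed.Agent.R210.FE.Step Claimed.Agent.R210.FE.Cost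
  Claimed.Agent.R210.FE.Limit

variable {X : Type*} [MetricSpace X] [MeasurableSpace X] [BorelSpace X]
  [CompleteSpace X] [TopologicalSpace.SeparableSpace X] [ProperSpace X]
variable {m : Measure X} {K N : ℝ} {F G : X → ℝ}

theorem fe_rhs_integral (hfin : FiniteOnBoundedSets m) (hF : LipB F) (x : X) (κ : ℝ) {A : Set X}
    (hAb : Bornology.IsBounded A) :
    ∫ z in A, (F z - F x + κ * wfun x z) ∂m =
      ∫ z in A, F z ∂m - (m A).toReal * F x + κ * ∫ z in A, wfun x z ∂m := by
  obtain ⟨R, hR⟩ := hAb.subset_closedBall x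
  have hfinB : m (Metric.closedBall x R) ≠ ∞ := (hfin _ Metric.isBounded_closedBall).ne
  obtain ⟨⟨L, hL⟩, ⟨B, hB⟩⟩ := hF
  have hFi : IntegrableOn F A m := by
    refine IntegrableOn.mono_set (t := Metric.closedBall x R) ?_ hR
    refine Measure.integrableOn_of_bounded (M := B) hfinB
      hL.continuous.aestronglyMeasurable ?_
    exact Filter.Eventually.of_forall fun z => by simpa [Real.norm_eq_abs] using hB z
  have hwc : Continuous (wfun x) := by
    unfold wfun
    fun_prop
  have hwi : IntegrableOn (wfun x) A m := by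
    refine IntegrableOn.mono_set (t := Metric.closedBall x R) ?_ hR
    refine Measure.integrableOn_of_bounded (M := R ^ 2 / 2) hfinB
      hwc.aestronglyMeasurable ?_
    refine (ae_restrict_iff' Metric.isClosed_closedBall.measurableSet).2
      (Filter.Eventually.of_forall fun z hz => ?_)
    have hz' : dist z x ≤ R := Metric.mem_closedBall.1 hz
    have h0 : 0 ≤ dist z x := dist_nonneg
    have : dist z x ^ 2 ≤ R ^ 2 := by nlinarith
    rw [Real.norm_eq_abs, wfun, abs_of_nonneg (by positivity)]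
    linarith
  have hci : IntegrableOn (fun _ : X => F x) A m :=
    integrableOn_const (hfin A hAb).ne
  have e1 : ∫ z in A, (F z - F x + κ * wfun x z) ∂m =
      ∫ z in A, (F z - F x) ∂m + ∫ z in A, κ * wfun x z ∂m :=
    integral_add (hFi.sub hci) (hwi.const_mul κ)
  have e2 : ∫ z in A, (F z - F x) ∂m = ∫ z in A, F z ∂m - ∫ _z in A, F x ∂m :=
    integral_sub hFi hci
  rw [e1, e2, integral_const_mul, setIntegral_const]
  simp [Measure.real, smul_eq_mul]

/-- squeeze: `|u n - c| ≤ C * r n`, `r n → 0` ⟹ `u n → c` -/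
theorem fe_squeeze {u r : ℕ → ℝ} {c C : ℝ} (h : ∀ n, |u n - c| ≤ C * r n)
    (hr : Tendsto r atTop (𝓝 0)) : Tendsto u atTop (𝓝 c) := by
  rw [tendsto_iff_dist_tendsto_zero]
  have h0 : Tendsto (fun n => C * r n) atTop (𝓝 0) := by simpa using hr.const_mul C
  refine squeeze_zero (fun n => dist_nonneg) (fun n => ?_) h0
  rw [Real.dist_eq]
  exact h n

/-- **Step C**: integrated form of (E''). -/
theorem fe_int (hS : Std m K N) (hF : LipB F) (hGb : BoundedFunction G) (hGc : Continuous G)
    (hH : WeakHessianUpperBound m F G) {x y : X} {l κ : ℝ} (hl : 0 < l) (hxy : dist x y = l)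
    (hκ : ∀ z ∈ Metric.ball y (3 * l), G z ≤ κ) {A : Set X} (hA : MeasurableSet A)
    (hAsub : A ⊆ Metric.ball y (l / 20)) :
    ∫ z in A, gamma m F (wfun x) z ∂m ≤ ∫ z in A, (F z - F x + κ * wfun x z) ∂m := by
  have hAb : Bornology.IsBounded A := Metric.isBounded_ball.subset hAsub
  by_cases hApos : m A = 0
  · have : m.restrict A = 0 := Measure.restrict_eq_zero.2 hApos
    simp [this]
  have hAtop : m A ≠ ∞ := fe_bounded_ne_top hS.finite hAb
  have hc : 0 < (m A).toReal := ENNReal.toReal_pos hApos hAtop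
  choose b a hba hclose hlip using fun n : ℕ =>
    fe_exists_pot hS hl hxy (fe_rad_pos hl n) (fe_rad_le hl n) hA hAsub hApos
  obtain ⟨L, hL⟩ := hF.1
  -- the inequality for every n
  have hstep : ∀ n, (m A).toReal⁻¹ * ∫ z in A, gamma m F (b n) z ∂m ≤
      (m A).toReal⁻¹ * ∫ z in A, F z ∂m - ∫ z, F z ∂(fe_unif m (Metric.ball x (fe_rad l n))) +
        κ / 2 * W2sqR (fe_unif m (Metric.ball x (fe_rad l n))) (fe_unif m A) := by
    intro n
    have := fe_step hS hF hGb hGc hH hl hxy hκ (fe_rad_pos hl n) (fe_rad_le hl n) hA hAsub hApos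
      (hba n)
    rwa [fe_unif_integral, fe_unif_integral (A := A)] at this
  -- limits
  have lim1 := (fe_gamma_tendsto hS hF hl hxy hA hAsub (fun n => ⟨(hba n).lip_a, (hba n).bdd_a⟩)
    hclose hlip).const_mul (m A).toReal⁻¹
  have lim2 : Tendsto (fun n => ∫ z, F z ∂(fe_unif m (Metric.ball x (fe_rad l n)))) atTop
      (𝓝 (F x)) :=
    fe_squeeze (fun n => fe_unif_ball_close hS.full hS.finite hL x (fe_rad_pos hl n))
      (fe_rad_tendsto l)
  have lim3 : Tendsto (fun n => W2sqR (fe_unif m (Metric.ball x (fe_rad l n))) (fe_unif m A)) atTop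
      (𝓝 (2 * ∫ z, wfun x z ∂(fe_unif m A))) :=
    fe_squeeze (fun n => fe_W2_close hS.full hS.finite hl hxy (fe_rad_pos hl n) (fe_rad_le hl n)
      hA hAsub hApos) (fe_rad_tendsto l)
  have lim4 := ((tendsto_const_nhds (x := (m A).toReal⁻¹ * ∫ z in A, F z ∂m)).sub lim2).add
    (lim3.const_mul (κ / 2))
  have hlim := le_of_tendsto_of_tendsto' lim1 lim4 hstep
  rw [fe_unif_integral] at hlim
  rw [fe_rhs_integral hS.finite hF x κ hAb]
  have h5 := mul_le_mul_of_nonneg_left hlim hc.le
  have e1 : (m A).toReal * ((m A).toReal⁻¹ * ∫ z in A, gamma m F (wfun x) z ∂m) =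
      ∫ z in A, gamma m F (wfun x) z ∂m := by
    rw [← mul_assoc, mul_inv_cancel₀ hc.ne', one_mul]
  have e2 : (m A).toReal * ((m A).toReal⁻¹ * ∫ z in A, F z ∂m - F x +
      κ / 2 * (2 * ((m A).toReal⁻¹ * ∫ z in A, wfun x z ∂m))) =
      ∫ z in A, F z ∂m - (m A).toReal * F x + κ * ∫ z in A, wfun x z ∂m := by
    field_simp
  rw [e1, e2] at h5
  exact h5

end Claimed.Agent.R210.FE.Int
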