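/-
Row 210 (S0432), layer FE (first order inequality): INTERFACE.   Architect: helper241.
Consumers (P3) import this file only.

  `fe_main` = (E'') of `origin/helper928:docs/R210_partZ.md`:
     `x ≠ y`, `l = d(x,y)`, `G ≤ κ` on `ball y (3l)`  ⟹  for `m`-a.e. `z ∈ ball y (l/20)`:
        `Γ(F, w_x)(z) ≤ F z - F x + κ w_x(z)`,   `w_x = wfun x = d(·,x)²/2`.
  `fe_int'` = its integrated form over measurable subsets of `ball y (l/20)`.

Structure of the layer:  Need (calls of MO, FO, OT, GC) ; Unif, Plan, Calc, Cost, Cut (elementary leaves) ;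
Pot (OT4 with two sided bounds) ; Weak (weak continuity from GC) ; Step (fixed r) ; Limit (r → 0) ;
Int (integrated form) ; Ifc.
-/
import Claimed.Agent.R210.FE.Int

set_option autoImplicit false

open Claims.C0366 Claims.C0366.WeakHessian
open Set Filter MeasureTheory
open scoped ENNReal NNReal Topology

namespace Claimed.Agent.R210.FE.Ifc

open Claimed.Agent.R210.Defs Claimed.Agent.R210.FE.Defs Claimed.Agent.R210.FE.Need
  Claimed.Agent.R210.FE.Int

variable {X : Type*} [MetricSpace X] [MeasurableSpace X] [BorelSpace X]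
  [CompleteSpace X] [TopologicalSpace.SeparableSpace X] [ProperSpace X]
variable {m : Measure X} {K N : ℝ} {F G : X → ℝ}

/-- integrated form of (E'') -/
theorem fe_int' (hS : Std m K N) (hF : LipB F) (hGb : BoundedFunction G) (hGc : Continuous G)
    (hH : WeakHessianUpperBound m F G) {x y : X} {l κ : ℝ} (hl : 0 < l) (hxy : dist x y = l)
    (hκ : ∀ z ∈ Metric.ball y (3 * l), G z ≤ κ) {A : Set X} (hA : MeasurableSet A)
    (hAsub : A ⊆ Metric.ball y (l / 20)) :
    ∫ z in A, gamma m F (wfun x) z ∂m ≤ ∫ z in A, (F z - F x + κ * wfun x z) ∂m :=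
  fe_int hS hF hGb hGc hH hl hxy hκ hA hAsub

/-- **(E'')**: the first order inequality. -/
theorem fe_main (hS : Std m K N) (hF : LipB F) (hGb : BoundedFunction G) (hGc : Continuous G)
    (hH : WeakHessianUpperBound m F G) {x y : X} {l κ : ℝ} (hl : 0 < l) (hxy : dist x y = l)
    (hκ : ∀ z ∈ Metric.ball y (3 * l), G z ≤ κ) :
    ∀ᵐ z ∂m, z ∈ Metric.ball y (l / 20) → gamma m F (wfun x) z ≤ F z - F x + κ * wfun x z := by
  have hBm : MeasurableSet (Metric.ball y (l / 20)) := Metric.isOpen_ball.measurableSet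
  have i1 : Integrable (gamma m F (wfun x)) (m.restrict (Metric.ball y (l / 20))) :=
    fe_need_gamma_integrableOn _ _ y (l / 20)
  have i2 : Integrable (fun z => F z - F x + κ * wfun x z) (m.restrict (Metric.ball y (l / 20))) := by
    have a1 : IntegrableOn F (Metric.ball y (l / 20)) m :=
      Unif.fe_integrableOn_F hS.finite hF Metric.isBounded_ball
    have a2 : IntegrableOn (wfun x) (Metric.ball y (l / 20)) m :=
      Unif.fe_integrableOn_wfun hS.finite x Metric.isBounded_ball
    have a3 : IntegrableOn (fun _ : X => F x) (Metric.ball y (l / 20)) m :=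
      integrableOn_const (Unif.fe_bounded_ne_top hS.finite Metric.isBounded_ball)
    exact (a1.sub a3).add (a2.const_mul κ)
  have h := ae_le_of_forall_setIntegral_le i1 i2 (fun s hs _ => by
    rw [Measure.restrict_restrict hs]
    exact fe_int hS hF hGb hGc hH hl hxy hκ (hs.inter hBm) inter_subset_right)
  exact (ae_restrict_iff' hBm).1 h

/-- (E'') in the form asked for by P3 (`P3/Need.lean`, `p3_need_fe`). -/
theorem fe_p3 (m : Measure X) (K N : ℝ) (hS : Std m K N) (F G : X → ℝ)
    (hFlip : GloballyLipschitz F) (hFb : BoundedFunction F)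
    (hGb : BoundedFunction G) (hGc : Continuous G) (hHess : WeakHessianUpperBound m F G)
    (x y : X) (κ : ℝ) (hxy : x ≠ y) (hκ : ∀ z ∈ Metric.ball y (3 * dist x y), G z ≤ κ) :
    ∀ᵐ z ∂m, z ∈ Metric.ball y (dist x y / 20) →
      gamma m F (wfun x) z ≤ F z - F x + κ * wfun x z :=
  fe_main hS ⟨hFlip, hFb⟩ hGb hGc hHess (dist_pos.2 hxy) rfl hκ

end Claimed.Agent.R210.FE.Ifc
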